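import Vale.Agent.P166.Hopf.Up.Envelope
import Vale.Agent.P166.Par.Multi.Facts

/-! The upper bound averaged over the labels, from what the fields and the ends provide for every
sequence of labels. -/

open MeasureTheory ProbabilityTheory Real Finset Filter
open scoped Topology
open Vale.Agent.P168.MP (lin)

namespace Vale.Agent.P166.Hopf.Up

open Vale.Agent.P157
open Vale.Agent.P157.Full

open Vale.Agent.P157.Par (Prof Sm)
open Vale.Agent.P166.Par.Multi (Fam Wts pressV pressBar lavg lavg_succ lavg_const lavg_mono lavg_add lavg_sum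
  lavg_const_mul exists_uniform hamV)

variable {s N M : ℕ}

/-- the mean of a function of one label -/
lemma lavg_coord {p : Fin s → ℝ} (hp : Wts p) (φ : Fin s → ℝ) (a : Fin M) :
    lavg p (fun k : Fin M → Fin s => φ (k a)) = ∑ j, p j * φ j := by
  cases M with
  | zero => exact a.elim0
  | succ M => simp only [lavg_succ a, Fin.insertNth_apply_same, lavg_const hp]

/-- labels as an initial segment of a sequence -/
lemma pressV_eq (P : Fam s) (k : Fin M → Fin s) (κ : ℕ → Fin s) (hκ : ∀ a : Fin M, κ a = k a) :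
    pressV P N k = pressF (fun a => P.f (κ a)) N M := by
  simp only [pressV, pressF, hamV, hamF, hκ]

variable {R k : ℕ} {h : ℕ → ℝ} {V : ℝ}

lemma qh_rep_fun (hR : 1 ≤ R) (hk : 1 ≤ k) (hh : Prof R h V) : qh (k * R) (rep k h) = rep k (qh R h) := by
  funext l
  rcases le_or_gt l (k * R) with hl | hl
  · exact qh_rep hR hk hh hl
  · have : R ≤ l / k := (Nat.le_div_iff_mul_le (by omega)).2 (by rw [mul_comm]; exact hl.le)
    simp only [qh, rep, if_neg (not_lt.2 hl.le), if_neg (not_lt.2 this)]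

lemma spinH_rep (hR : 1 ≤ R) (hk : 1 ≤ k) (hh : Prof R h V) : spinH (k * R) (rep k h) = spinH R h := by
  have h0 : (k : ℝ) ≠ 0 := by exact_mod_cast (show k ≠ 0 by omega)
  rw [spinH, spinH, psiH_rep hR hk hh, qh_rep_fun hR hk hh]
  congr 2
  rw [dotH, dotH]
  show (∑ l ∈ range (k * R), (fun p => h p * qh R h p) (l / k)) / _ = _
  rw [sum_rep hk (fun p => h p * qh R h p)]
  push_cast
  rw [mul_div_mul_left _ _ h0]

/-- **the upper bound by every path**, from the grid of perturbations and what the fields and the ends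
provide for every sequence of labels -/
theorem upper_hopf_of (hG : GridX)
    (hprov : ∀ (s : ℕ) (P : Fam s), ∃ Kp, 0 ≤ Kp ∧ ∀ κ : ℕ → Fin s,
      FieldX (fun a => P.f (κ a)) P.D ∧ IbpX (fun a => P.f (κ a)) ∧ ZeroX (fun a => P.f (κ a)) ∧
        GeX (fun a => P.f (κ a)) ∧ StepX (fun a => P.f (κ a)) Kp) : StmtUpper := by
  intro s P p hp α hα R h V hR hh ε hε
  have : Nonempty (Fin s) := by
    rcases Nat.eq_zero_or_pos s with rfl | hs
    · simpa using hp.one
    · exact ⟨⟨0, hs⟩⟩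
  obtain ⟨Kp, hKp, hp'⟩ := hprov s P
  obtain ⟨KL, hKL, hL⟩ := exists_uniform (C := fun j K => Vale.Agent.P157.Par.PhiLip (P.f j) K)
    (fun j => Vale.Agent.P157.Par.phiLip_of (P.sm j))
    fun j K K' hKK hK' R' q q' hR' hq hq' =>
      (hK' R' q q' hR' hq hq').trans (mul_le_mul_of_nonneg_right hKK (Vale.Agent.P157.Par.dist1_nonneg _ _ _))
  obtain ⟨r, hr⟩ := exists_nat_ge (4 * α * KL / ε)
  have hR0 : 1 ≤ (r + 1) * R := Nat.one_le_iff_ne_zero.2 (Nat.mul_ne_zero (by omega) (by omega))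
  have hh0 : Prof ((r + 1) * R) (rep (r + 1) h) V := by
    refine ⟨by simpa [rep] using hh.zero, fun l hl => ?_, ?_⟩
    · exact hh.le_of_le (Nat.div_le_div_right (Nat.le_succ l)) (Nat.div_le_of_le_mul (by omega))
    · rw [rep, Nat.mul_div_cancel_left _ (by omega)]; exact hh.top
  set φ : Fin s → ℝ := fun j => Vale.Agent.P157.Par.Phi (fun y => exp (P.f j y)) R (lin R) (qh R h) with hφ
  have hΦ : ∀ j, Vale.Agent.P157.Par.Phi (fun y => exp (P.f j y)) ((r + 1) * R) (lin ((r + 1) * R))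
      (qh ((r + 1) * R) (rep (r + 1) h)) = φ j := fun j => by
    rw [qh_rep_fun hR (by omega) hh, Phi_rep (Vale.Agent.P157.Par.adm_exp (P.sm j)) hR (by omega) (qh_prof hR hh).1]
  set ε₁ := ε / (4 * (5 * α + 7))
  have h1 : α * (KL * (2 / (((r + 1) * R : ℕ) : ℝ))) ≤ ε / 2 := by
    rw [div_le_iff₀ hε] at hr
    have hRR : (r:ℝ) + 1 ≤ (((r + 1) * R : ℕ) : ℝ) := by exact_mod_cast Nat.le_mul_of_pos_right (r + 1) (by omega : 0 < R)
    rw [mul_div_assoc', mul_div_assoc', div_le_iff₀ (by linarith [Nat.cast_nonneg (α := ℝ) r])]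
    nlinarith
  have h2 : ε₁ * (5 * α + 7) = ε / 4 := by simp only [ε₁]; field_simp
  set m := ∑ j, p j * φ j with hm
  filter_upwards [upper_fine hG hKp hα hKL hR0 hh0 (show 0 < ε₁ by positivity),
    eventually_ge_atTop 1, (tendsto_const_div_atTop_nhds_zero_nat |m|).eventually_le_const (show (0:ℝ) < ε / 4 by linarith)]
    with N hN hN1 hmN
  have hNpos : (0:ℝ) < N := by exact_mod_cast hN1
  obtain ⟨M, hM⟩ : ∃ M, M = ⌊α * N⌋₊ := ⟨_, rfl⟩
  rw [← hM] at hN ⊢
  have key : ∀ k : Fin M → Fin s, pressV P N k ≤ spinH R h + 3 * ε / 4 + (1 / N) * ∑ a : Fin M, φ (k a) := fun k => by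
    obtain ⟨j₀⟩ := ‹Nonempty (Fin s)›
    set κ : ℕ → Fin s := fun a => if ha : a < M then k ⟨a, ha⟩ else j₀
    have hκ : ∀ a : Fin M, κ a = k a := fun a => dif_pos a.2
    obtain ⟨f1, f2, f3, f4, f5⟩ := hp' κ
    have h := hN (fun a => P.f (κ a)) (fun a => P.f1 (κ a)) (fun a => P.f2 (κ a)) (fun a => P.f3 (κ a))
      f1 f2 f3 f4 f5 (fun a => P.sm (κ a)) (fun a x => P.ub (κ a) x) (fun a => hL (κ a))
    have e : ∑ a ∈ range M, φ (κ a) = ∑ a : Fin M, φ (k a) :=
      (Fin.sum_univ_eq_sum_range (fun a => φ (κ a)) M).symm.trans (sum_congr rfl fun a _ => by rw [hκ])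
    simp only [hΦ] at h
    rw [spinH_rep hR (by omega) hh, e, ← pressV_eq P k κ hκ] at h
    rw [one_div_mul_eq_div]
    linarith
  have e : lavg p (fun k : Fin M → Fin s => ∑ a : Fin M, φ (k a)) = M * m := by
    rw [lavg_sum univ fun a k => φ (k a), sum_congr rfl fun a _ => lavg_coord hp φ a, sum_const, card_univ,
      Fintype.card_fin, nsmul_eq_mul]
  have hb := lavg_mono hp key
  rw [lavg_add, lavg_const hp, lavg_const_mul, e] at hb
  refine hb.trans ?_
  have hJ : JvalV α P p R h = α * m + spinH R h := rfl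
  have hlt : α * N < M + 1 := by rw [hM]; exact Nat.lt_floor_add_one _
  have hle : (M:ℝ) ≤ α * N := by rw [hM]; exact Nat.floor_le (by positivity)
  have h3 : 1 / (N:ℝ) * (M * m) ≤ α * m + |m| / N := by
    rw [one_div_mul_eq_div, div_le_iff₀ hNpos, add_mul, div_mul_cancel₀ _ hNpos.ne']
    rcases le_total 0 m with h0 | h0
    · rw [abs_of_nonneg h0]; nlinarith
    · rw [abs_of_nonpos h0]; nlinarith
  linarith

end Vale.Agent.P166.Hopf.Up
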