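import Vale.Agent.P157.Full.UDefs
import Vale.Agent.P157.Par.UpperMix
import Vale.Agent.P157.Full.Defs

/-! The envelope system with one potential per pattern. -/

open MeasureTheory ProbabilityTheory Real Finset
open Vale.Agent.P150 (gauss dot)
open Vale.Agent.P168.MP (lin logZ0 Batch gain1 Mark ET avg allBatch BIdx gu)
open Vale.Agent.P157 Vale.Agent.P157.Full
open Filter Topology
open Vale.Agent.P168.MP (gainCap)
open Vale.Agent.P157.Par (adev ovK qlev)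

namespace Vale.Agent.P166.Hopf.Up

variable {C : Type} {N S : ℕ} [NeZero N] {ι : Type} {β : ι → Batch}

/-- the weight of patterns with one potential each -/
noncomputable def hamF (fs : ℕ → ℝ → ℝ) {M : ℕ} (g : Fin M → Fin N → ℝ) (σ : Fin N → Bool) : ℝ :=
  exp (∑ a : Fin M, fs (a : ℕ) (dot (Vale.Agent.P157.Lim.xv N σ) (g a)))

/-- the weight at the configuration read at the last mark -/
noncomputable def baseF (fs : ℕ → ℝ → ℝ) (R : ℕ) {L : ℕ} [NeZero L] {M : ℕ} (g : Fin M → Fin N → ℝ)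
    (p : List (P157.Par.Site N L)) : ℝ := hamF fs g (P157.Par.spins R p)

/-- patterns and site fields -/
noncomputable def fieldW {n M : ℕ} (fs : ℕ → ℝ → ℝ) (R₀ k : ℕ) (lam : Fin R₀ → ℝ) (g : Fin M → Fin N → ℝ)
    (z : Fin N × P157.Par.Ix (k * R₀) n → ℝ) (p : List (P157.Par.Site N (n + 1))) : ℝ :=
  baseF fs (k * R₀) g p * exp (dot (lamVec R₀ k lam p) z)

/-- the perturbed weight with patterns and site fields -/
noncomputable def wX [Fintype ι] {n M : ℕ} (fs : ℕ → ℝ → ℝ) (R₀ k S : ℕ) (β : ι → Batch) (h u : ι → ℝ)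
    (lam : Fin R₀ → ℝ) (g : Fin M → Fin N → ℝ) (z : Fin N × P157.Par.Ix (k * R₀) n → ℝ) :
    List (MarkX (P157.Par.Site N (n + 1)) N S β) → ℝ :=
  pwX cfg (k * R₀) (fieldW fs R₀ k lam g z) h u

/-- the random log partition function -/
noncomputable def FX [Fintype ι] [DecidableEq ι] {n M : ℕ} (fs : ℕ → ℝ → ℝ) (R₀ k S : ℕ) (β : ι → Batch) (h u : ι → ℝ)
    (lam : Fin R₀ → ℝ) (g : Fin M → Fin N → ℝ) (z : Fin N × P157.Par.Ix (k * R₀) n → ℝ) : ℝ :=
  logZ0 (k * R₀) (lin (k * R₀)) (wX fs R₀ k S β h u lam g z)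

/-- the random field energy of block `j` -/
noncomputable def HX [Fintype ι] [DecidableEq ι] {n M : ℕ} (fs : ℕ → ℝ → ℝ) (R₀ k S : ℕ) (β : ι → Batch) (h u : ι → ℝ)
    (lam : Fin R₀ → ℝ) (g : Fin M → Fin N → ℝ) (z : Fin N × P157.Par.Ix (k * R₀) n → ℝ) (j : Fin R₀) : ℝ :=
  ET (k * R₀) (lin (k * R₀)) (wX fs R₀ k S β h u lam g z) [(0, 0)]
    fun ps => dot (blockVec (k * R₀) k j ((ps.getD 0 []).map Prod.fst)) z

/-- the random mean overlap -/
noncomputable def rX [Fintype ι] [DecidableEq ι] {n M : ℕ} (fs : ℕ → ℝ → ℝ) (R₀ k S : ℕ) (β : ι → Batch) (h u : ι → ℝ)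
    (lam : Fin R₀ → ℝ) (g : Fin M → Fin N → ℝ) (z : Fin N × P157.Par.Ix (k * R₀) n → ℝ) : ℕ → ℝ :=
  P157.Par.qlev (k * R₀) (wX fs R₀ k S β h u lam g z) (spinX cfg (k * R₀))

/-- normalised log partition function with one potential per pattern -/
noncomputable def pressF (fs : ℕ → ℝ → ℝ) (N M : ℕ) : ℝ :=
  (∫ g, log (∑ σ, Vale.Agent.P157.Lim.wt N σ * hamF fs g σ) ∂P157.Par.pats N M) / N

/-! ### basic facts -/

variable {fs : ℕ → ℝ → ℝ} {R L M : ℕ} [NeZero L] {B : ℝ}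

section basic
omit [NeZero N]

lemma hamF_pos (fs : ℕ → ℝ → ℝ) (g : Fin M → Fin N → ℝ) (σ : Fin N → Bool) : 0 < hamF fs g σ := exp_pos _

lemma baseF_pos (g : Fin M → Fin N → ℝ) (p : List (P157.Par.Site N L)) : 0 < baseF fs R g p := exp_pos _

lemma continuous_baseF (hf : ∀ i, Continuous (fs i)) (p : List (P157.Par.Site N L)) :
    Continuous fun g : Fin M → Fin N → ℝ => baseF fs R g p := by
  unfold baseF hamF
  exact continuous_exp.comp (continuous_finsetSum _ fun a _ =>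
    (hf a).comp ((P157.Par.continuous_dot_left _).comp (continuous_apply a)))

lemma abs_log_baseF (hb : ∀ i x, |fs i x| ≤ B) (g : Fin M → Fin N → ℝ) (p : List (P157.Par.Site N L)) :
    |log (baseF fs R g p)| ≤ M * B := by
  rw [baseF, hamF, log_exp]
  exact (abs_sum_le_sum_abs _ _).trans ((sum_le_sum fun a _ => hb _ _).trans_eq (by simp))

end basic

/-! ### what the envelope takes from the field and the ends -/

/-- what `FX_convex`, `meanX_deriv`, `FX_lip` provide at one amplitude vector -/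
def FieldX (fs : ℕ → ℝ → ℝ) (D : ℝ) : Prop :=
  ∀ {R₀ k S N n M : ℕ} [NeZero N] {ι : Type} [Fintype ι] [DecidableEq ι] {β : ι → Batch} {h u : ι → ℝ},
    1 ≤ R₀ → 1 ≤ k → (∀ j, |h j| ≤ 1) → (∀ j, |u j| ≤ 1) → ∀ (lam : Fin R₀ → ℝ),
    (∀ (g g' : Fin M → Fin N → ℝ) (z z' : Fin N × P157.Par.Ix (k * R₀) n → ℝ),
      |FX fs R₀ k S β h u lam g z - FX fs R₀ k S β h u lam g' z'| ≤
        √((M : ℝ) * D ^ 2 + N * ∑ j, lam j ^ 2) *
          √((∑ a, ∑ i, (g a i - g' a i) ^ 2) + ∑ x, (z x - z' x) ^ 2)) ∧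
    ∀ j : Fin R₀,
      (∀ (g : Fin M → Fin N → ℝ) (z : Fin N × P157.Par.Ix (k * R₀) n → ℝ),
        ConvexOn ℝ Set.univ (fun t => FX fs R₀ k S β h u (Function.update lam j t) g z) ∧
          HasDerivAt (fun t => FX fs R₀ k S β h u (Function.update lam j t) g z)
            (HX fs R₀ k S β h u lam g z j) (lam j)) ∧
      HasDerivAt (fun t => meanX (N := N) (M := M) (FX (N := N) (n := n) fs R₀ k S β h u (Function.update lam j t)))
        (meanX (N := N) (M := M) fun g z => HX (N := N) (n := n) fs R₀ k S β h u lam g z j) (lam j)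

/-- what `HX_ibp` provides -/
def IbpX (fs : ℕ → ℝ → ℝ) : Prop :=
  ∀ (R₀ k S N M : ℕ) [NeZero N] {ι : Type} [Fintype ι] [DecidableEq ι] {β : ι → Batch} {h u : ι → ℝ},
    1 ≤ R₀ → 1 ≤ k → (∀ j, |h j| ≤ 1) → (∀ j, |u j| ≤ 1) → ∀ (Λ : ℝ) {ε : ℝ}, 0 < ε →
    ∀ᶠ n : ℕ in atTop, ∀ (lam : Fin R₀ → ℝ), (∀ i, 0 ≤ lam i ∧ lam i ≤ Λ) → ∀ (j : Fin R₀),
      |meanX (N := N) (M := M) (fun g z => HX (N := N) (n := n) fs R₀ k S β h u lam g z j) -
        lam j * N * (1 - tailAvg (k * R₀) (j * k) fun l =>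
          meanX (N := N) (M := M) fun g z => rX (N := N) (n := n) fs R₀ k S β h u lam g z l)| ≤ N * ε ∧
      |meanX (N := N) (M := M) (fun g z => HX (N := N) (n := n) fs R₀ k S β h u lam g z j *
          tailAvg (k * R₀) (j * k) (rX (N := N) (n := n) fs R₀ k S β h u lam g z)) -
        lam j * N * meanX (N := N) (M := M) (fun g z =>
          (1 - tailAvg (k * R₀) (j * k) (rX (N := N) (n := n) fs R₀ k S β h u lam g z)) *
            tailAvg (k * R₀) (j * k) (rX (N := N) (n := n) fs R₀ k S β h u lam g z))| ≤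
        N * (12 * |lam j| * meanX (N := N) (M := M) (fun g z =>
          adev (k * R₀) (wX (N := N) (n := n) fs R₀ k S β h u lam g z) (ovK (spinX cfg (k * R₀)))
            (rX (N := N) (n := n) fs R₀ k S β h u lam g z)) + ε)

/-- what `meanX_zero` provides -/
def ZeroX (fs : ℕ → ℝ → ℝ) : Prop :=
  ∀ {R₀ k : ℕ}, 1 ≤ R₀ → 1 ≤ k → ∀ {ι : Type} [Fintype ι] [DecidableEq ι] (β : ι → Batch) (S : ℕ) (h u : ι → ℝ),
    (∀ j, |h j| ≤ 1) → (∀ j, |u j| ≤ 1) → ∀ (Λ : ℝ) {ε : ℝ}, 0 < ε →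
    ∀ᶠ n : ℕ in atTop, ∀ (N : ℕ) [NeZero N] (lam : Fin R₀ → ℝ), (∀ i, 0 ≤ lam i ∧ lam i ≤ Λ) →
      |meanX (N := N) (M := 0) (FX (N := N) (n := n) fs R₀ k S β h u lam) -
        N * (psiH R₀ (lamPath lam) + lamPath lam R₀ / 2)| ≤ gainCap S β + N * ε

/-- what `meanX_ge` provides -/
def GeX (fs : ℕ → ℝ → ℝ) : Prop :=
  ∀ {R₀ k S N n M : ℕ} [NeZero N], 1 ≤ R₀ → 1 ≤ k →
    ∀ {ι : Type} [Fintype ι] [DecidableEq ι] (β : ι → Batch) (h u : ι → ℝ),
    (∀ j, |h j| ≤ 1) → (∀ j, |u j| ≤ 1) → ∀ (lam : Fin R₀ → ℝ),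
    N * pressF fs N M - gainCap S β ≤
      meanX (N := N) (M := M) (FX (N := N) (n := n) fs R₀ k S β h u lam)

/-- what `pattern_stepX` provides -/
def StepX (fs : ℕ → ℝ → ℝ) (K : ℝ) : Prop :=
  ∀ {R₀ k S N n M : ℕ} [NeZero N] {ι : Type} [Fintype ι] [DecidableEq ι] (β : ι → Batch) (h u : ι → ℝ)
    (lam : Fin R₀ → ℝ), 1 ≤ R₀ → 1 ≤ k → (∀ j, |h j| ≤ 1) → (∀ j, |u j| ≤ 1) →
    |meanX (N := N) (M := M + 1) (FX (N := N) (n := n) fs R₀ k S β h u lam) - meanX (N := N) (M := M) (FX (N := N) (n := n) fs R₀ k S β h u lam) -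
      meanX (N := N) (M := M + 1) (fun g z => P157.Par.Phi (fun y => exp (fs M y)) (k * R₀) (lin (k * R₀))
        (rX (N := N) (n := n) fs R₀ k S β h u lam g z))| ≤
      K * meanX (N := N) (M := M) (fun g z => adev (k * R₀) (wX (N := N) (n := n) fs R₀ k S β h u lam g z)
        (ovK (spinX cfg (k * R₀))) (rX (N := N) (n := n) fs R₀ k S β h u lam g z))

end Vale.Agent.P166.Hopf.Up
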