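import Vale.Agent.P157.Full.EnvBase
import Vale.Agent.P166.Hopf.Up.Defs

/-! Means over patterns and fields, and the crude bounds of the envelope system. -/

open MeasureTheory ProbabilityTheory Real Finset
open Vale.Agent.P150 (gauss dot l1 l1_nonneg abs_dot_le)
open Vale.Agent.P168.MP (lin ET Batch gain1 gainCap nest)

namespace Vale.Agent.P166.Hopf.Up

open Vale.Agent.P157
open Vale.Agent.P157.Full

open Vale.Agent.P157.Par (pats ham Prof adev ovK qlev)

/-! ### means -/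

/-! ### the system -/

variable {fs : ℕ → ℝ → ℝ} {B : ℝ} {N n M R₀ k S : ℕ} [NeZero N] {ι : Type} [Fintype ι] [DecidableEq ι]
  {β : ι → Batch} {h u u' : ι → ℝ} {lam : Fin R₀ → ℝ}

lemma fieldW_pos (g : Fin M → Fin N → ℝ) (z : Fin N × P157.Par.Ix (k * R₀) n → ℝ)
    (p : List (P157.Par.Site N (n + 1))) : 0 < fieldW fs R₀ k lam g z p :=
  mul_pos (hamF_pos fs g _) (exp_pos _)

lemma wX_pos (g : Fin M → Fin N → ℝ) (z : Fin N × P157.Par.Ix (k * R₀) n → ℝ)
    (p : List (MarkX (P157.Par.Site N (n + 1)) N S β)) : 0 < wX fs R₀ k S β h u lam g z p :=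
  mul_pos (fieldW_pos g z _) (exp_pos _)

lemma continuous_wX (hf : ∀ i, Continuous (fs i)) (p : List (MarkX (P157.Par.Site N (n + 1)) N S β)) :
    Continuous fun x : (Fin M → Fin N → ℝ) × (Fin N × P157.Par.Ix (k * R₀) n → ℝ) =>
      wX fs R₀ k S β h u lam x.1 x.2 p := by
  unfold wX pwX fieldW
  exact (((continuous_baseF hf _).comp continuous_fst).mul (continuous_exp.comp
    ((P157.Par.continuous_dot_left _).comp continuous_snd))).mul continuous_const

lemma continuous_wX_lam (g : Fin M → Fin N → ℝ) (z : Fin N × P157.Par.Ix (k * R₀) n → ℝ)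
    (p : List (MarkX (P157.Par.Site N (n + 1)) N S β)) :
    Continuous fun l : Fin R₀ → ℝ => wX fs R₀ k S β h u l g z p := by
  unfold wX pwX fieldW lamVec dot
  fun_prop

lemma continuous_FX (hf : ∀ i, Continuous (fs i)) :
    Continuous fun x : (Fin M → Fin N → ℝ) × (Fin N × P157.Par.Ix (k * R₀) n → ℝ) =>
      FX fs R₀ k S β h u lam x.1 x.2 :=
  P157.Par.continuous_logZ0 (continuous_wX hf) (fun x p => wX_pos x.1 x.2 p) _

lemma abs_FX_le (hb : ∀ i x, |fs i x| ≤ B) (hR : 1 ≤ k * R₀) (hh : ∀ j, |h j| ≤ 1) (hu : ∀ j, |u j| ≤ 1)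
    (g : Fin M → Fin N → ℝ) (z : Fin N × P157.Par.Ix (k * R₀) n → ℝ) :
    |FX fs R₀ k S β h u lam g z| ≤ (M * B + gainCap S β) + lamSum lam * l1 z := by
  refine P157.Par.abs_logZ0_le (Vale.Agent.P168.MP.ok_lin hR (wX_pos g z)) fun p => ?_
  rw [wX, pwX, fieldW, log_mul (mul_pos (baseF_pos g _) (exp_pos _)).ne' (exp_pos _).ne',
    log_mul (baseF_pos g _).ne' (exp_pos _).ne', log_exp, log_exp]
  refine (abs_add_le _ _).trans ?_
  refine le_trans (add_le_add ((abs_add_le _ _).trans (add_le_add (abs_log_baseF hb g _)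
    (abs_dot_le (abs_lamVec_le _) z))) (abs_gain_plain hh hu p)) (le_of_eq ?_)
  ring

lemma intX_FX (hf : ∀ i, Continuous (fs i)) (hb : ∀ i x, |fs i x| ≤ B) (hR : 1 ≤ k * R₀) (hh : ∀ j, |h j| ≤ 1)
    (hu : ∀ j, |u j| ≤ 1) : IntX (FX (N := N) (n := n) (M := M) fs R₀ k S β h u lam) :=
  intX_of_l1 (continuous_FX hf) fun g z => abs_FX_le hb hR hh hu g z

/-- two strengths of the perturbation -/
lemma abs_FX_sub_le (hR : 1 ≤ k * R₀) (hh : ∀ j, |h j| ≤ 1) (hu : ∀ j, |u j| ≤ 1) (hu' : ∀ j, |u' j| ≤ 1)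
    (g : Fin M → Fin N → ℝ) (z : Fin N × P157.Par.Ix (k * R₀) n → ℝ) :
    |FX fs R₀ k S β h u lam g z - FX fs R₀ k S β h u' lam g z| ≤ 2 * gainCap S β := by
  set W := fun p : List (MarkX (P157.Par.Site N (n + 1)) N S β) => fieldW fs R₀ k lam g z (p.map Prod.fst)
  have hW : ∀ p, 0 < W p := fun p => fieldW_pos g z _
  have key : ∀ v : ι → ℝ, (∀ j, |v j| ≤ 1) →
      |FX fs R₀ k S β h v lam g z - Vale.Agent.P168.MP.logZ0 (k * R₀) (lin (k * R₀)) W| ≤ gainCap S β := by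
    intro v hv
    have h1 := Vale.Agent.P168.MP.logZ0_mul (R := k * R₀) (m := lin (k * R₀)) hW
      (Y := fun p : List (MarkX (P157.Par.Site N (n + 1)) N S β) =>
        exp (∑ i : ι × Fin S, gain1 (k * R₀) h v (p.map (plain cfg)) i)) fun p => exp_pos _
    obtain ⟨ha, hb⟩ := Vale.Agent.P168.MP.nest_mem (Vale.Agent.P168.MP.ok_lin hR hW)
      (exp_pos (-gainCap S β)) (b := exp (gainCap S β))
      (Y := fun p : List (MarkX (P157.Par.Site N (n + 1)) N S β) =>
        exp (∑ i : ι × Fin S, gain1 (k * R₀) h v (p.map (plain cfg)) i))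
      (fun p _ => ⟨exp_le_exp.2 (abs_le.1 (abs_gain_plain hh hv p)).1,
        exp_le_exp.2 (abs_le.1 (abs_gain_plain hh hv p)).2⟩) (k * R₀) [] (by simp)
    rw [show FX fs R₀ k S β h v lam g z - Vale.Agent.P168.MP.logZ0 (k * R₀) (lin (k * R₀)) W = _ from h1,
      abs_le]
    constructor
    · rw [← log_exp (-gainCap S β)]; exact log_le_log (exp_pos _) ha
    · rw [← log_exp (gainCap S β)]; exact log_le_log ((exp_pos _).trans_le ha) hb
  have h1 := abs_le.1 (key u hu)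
  have h2 := abs_le.1 (key u' hu')
  rw [abs_le]; constructor <;> linarith

lemma rX_prof (g : Fin M → Fin N → ℝ) (z : Fin N × P157.Par.Ix (k * R₀) n → ℝ) :
    Prof (k * R₀) (rX fs R₀ k S β h u lam g z) 1 ∧ rX fs R₀ k S β h u lam g z (k * R₀) = 1 :=
  P157.Par.qlev_prof (wX_pos g z)

lemma continuous_rX (hf : ∀ i, Continuous (fs i)) (l : ℕ) :
    Continuous fun x : (Fin M → Fin N → ℝ) × (Fin N × P157.Par.Ix (k * R₀) n → ℝ) =>
      rX fs R₀ k S β h u lam x.1 x.2 l :=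
  P157.Par.continuous_ET (continuous_wX hf) (fun x p => wX_pos x.1 x.2 p) _ _ fun _ => continuous_const

lemma intX_rX (hf : ∀ i, Continuous (fs i)) (l : ℕ) :
    IntX fun g z => rX (N := N) (n := n) (M := M) fs R₀ k S β h u lam g z l :=
  intX_of_bound (continuous_rX hf l) fun g z => P157.Par.abs_qlev_le (wX_pos g z) l

/-- the mean deviation of the overlap kernel -/
noncomputable def adX (fs : ℕ → ℝ → ℝ) (R₀ k S : ℕ) (β : ι → Batch) (h u : ι → ℝ) (lam : Fin R₀ → ℝ)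
    (g : Fin M → Fin N → ℝ) (z : Fin N × P157.Par.Ix (k * R₀) n → ℝ) : ℝ :=
  adev (k * R₀) (wX fs R₀ k S β h u lam g z) (ovK (spinX cfg (k * R₀))) (rX fs R₀ k S β h u lam g z)

lemma continuous_adX (hf : ∀ i, Continuous (fs i)) :
    Continuous fun x : (Fin M → Fin N → ℝ) × (Fin N × P157.Par.Ix (k * R₀) n → ℝ) =>
      adX fs R₀ k S β h u lam x.1 x.2 := by
  have hd : ∀ j, Continuous fun x : (Fin M → Fin N → ℝ) × (Fin N × P157.Par.Ix (k * R₀) n → ℝ) =>
      P157.Par.devOf (k * R₀) (wX fs R₀ k S β h u lam x.1 x.2) (ovK (spinX cfg (k * R₀)))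
        (rX fs R₀ k S β h u lam x.1 x.2) j := fun j =>
    P157.Par.continuous_ET (continuous_wX hf) (fun x p => wX_pos x.1 x.2 p) _ _ fun _ =>
      (continuous_const.sub (continuous_rX hf j)).abs
  unfold adX adev
  exact ((continuous_finsetSum _ fun j _ => hd j).div_const _).add (hd _)

lemma adX_mem (hR : 1 ≤ k * R₀) (g : Fin M → Fin N → ℝ) (z : Fin N × P157.Par.Ix (k * R₀) n → ℝ) :
    0 ≤ adX fs R₀ k S β h u lam g z ∧ adX fs R₀ k S β h u lam g z ≤ 6 := by
  refine ⟨P157.Par.adev_nonneg (wX_pos g z) _ _, ?_⟩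
  have h1 := P157.Par.abs_dlv_le (wX_pos (fs := fs) (S := S) (β := β) (h := h) (u := u) (lam := lam) g z) hR
    (spinX cfg (k * R₀)) (k * R₀)
  have h2 := P157.Par.devOf_nonneg (wX_pos (fs := fs) (S := S) (β := β) (h := h) (u := u) (lam := lam) g z)
    (R := k * R₀) (ovK (spinX cfg (k * R₀))) (rX fs R₀ k S β h u lam g z) (k * R₀)
  simp only [P157.Par.dlv] at h1
  simp only [adX, rX] at *
  linarith [(abs_le.1 h1).2]

lemma intX_adX (hf : ∀ i, Continuous (fs i)) (hR : 1 ≤ k * R₀) :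
    IntX (adX (N := N) (n := n) (M := M) fs R₀ k S β h u lam) :=
  intX_of_bound (continuous_adX hf) fun g z => by
    rw [abs_of_nonneg (adX_mem hR g z).1]; exact (adX_mem hR g z).2

lemma continuous_HX (hf : ∀ i, Continuous (fs i)) (j : Fin R₀) :
    Continuous fun x : (Fin M → Fin N → ℝ) × (Fin N × P157.Par.Ix (k * R₀) n → ℝ) =>
      HX fs R₀ k S β h u lam x.1 x.2 j :=
  P157.Par.continuous_ET (continuous_wX hf) (fun x p => wX_pos x.1 x.2 p) _ _ fun _ =>
    (P157.Par.continuous_dot_left _).comp continuous_snd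

lemma abs_HX_le (g : Fin M → Fin N → ℝ) (z : Fin N × P157.Par.Ix (k * R₀) n → ℝ) (j : Fin R₀) :
    |HX fs R₀ k S β h u lam g z j| ≤ l1 z :=
  Vale.Agent.P168.MP.ET_bound (wX_pos g z) fun _ =>
    (abs_dot_le (abs_blockVec_le _ _ _ _) z).trans_eq (one_mul _)

lemma intX_HX (hf : ∀ i, Continuous (fs i)) (j : Fin R₀) :
    IntX fun g z => HX (N := N) (n := n) (M := M) fs R₀ k S β h u lam g z j :=
  intX_of_l1 (continuous_HX hf j) (A := 0) (C := 1) fun g z => by simpa using abs_HX_le g z j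

end Vale.Agent.P166.Hopf.Up
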