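import Vale.Agent.P157.Full.EnvLam
import Vale.Agent.P166.Hopf.Up.EnvBase

/-! The field value as a function of the amplitudes and of the number of patterns, and means over a
grid of strengths, patterns and fields together. -/

open MeasureTheory ProbabilityTheory Real Finset
open Vale.Agent.P150 (gauss dot l1 l1_nonneg abs_dot_le)
open Vale.Agent.P168.MP (lin ET Batch gain1 gainCap nest avg logZ0 avg_le_avg avg_const)

namespace Vale.Agent.P166.Hopf.Up

open Vale.Agent.P157
open Vale.Agent.P157.Full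

open Vale.Agent.P157.Par (pats ham Prof adev ovK qlev)

/-! ### means over strengths, patterns and fields -/

/-! ### amplitudes and patterns -/

variable {fs : ℕ → ℝ → ℝ} {B : ℝ} {N n M R₀ k S : ℕ} [NeZero N] {ι : Type} [Fintype ι] [DecidableEq ι]
  {β : ι → Batch} {h u u' : ι → ℝ}

lemma abs_FX_lam_le (hR : 1 ≤ k * R₀) (lam lam' : Fin R₀ → ℝ) (g : Fin M → Fin N → ℝ)
    (z : Fin N × P157.Par.Ix (k * R₀) n → ℝ) :
    |FX fs R₀ k S β h u lam g z - FX fs R₀ k S β h u lam' g z| ≤ lamSum (lam - lam') * l1 z := by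
  have e : wX fs R₀ k S β h u lam g z = fun p => wX fs R₀ k S β h u lam' g z p *
      exp (dot (lamVec R₀ k (lam - lam') (p.map Prod.fst)) z) := by
    funext p
    have : dot (lamVec R₀ k lam (p.map Prod.fst)) z =
        dot (lamVec R₀ k lam' (p.map Prod.fst)) z + dot (lamVec R₀ k (lam - lam') (p.map Prod.fst)) z := by
      simp only [dot, lamVec_sub lam lam', add_mul, sum_add_distrib]
    simp only [wX, pwX, fieldW, this, exp_add]
    ring
  unfold FX
  rw [e]
  exact abs_logZ0_tilt hR (wX_pos g z) fun p => abs_dot_le (abs_lamVec_le _) z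

/-- patterns raise the value by at most the bound of the potential -/
lemma FX_le_zero (hb : ∀ i x, |fs i x| ≤ B) (hR : 1 ≤ k * R₀) (lam : Fin R₀ → ℝ) (g : Fin M → Fin N → ℝ)
    (g₀ : Fin 0 → Fin N → ℝ) (z : Fin N × P157.Par.Ix (k * R₀) n → ℝ) :
    FX fs R₀ k S β h u lam g z ≤ FX fs R₀ k S β h u lam g₀ z + M * B := by
  have e : wX fs R₀ k S β h u lam g z = fun p => wX fs R₀ k S β h u lam g₀ z p *
      exp (log (baseF fs (k * R₀) g (p.map Prod.fst))) := by
    funext p
    rw [exp_log (baseF_pos g _)]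
    have : baseF fs (k * R₀) g₀ (p.map Prod.fst) = 1 := by simp [baseF, hamF]
    simp only [wX, pwX, fieldW, this]
    ring
  have := abs_le.1 (abs_logZ0_tilt hR (wX_pos (fs := fs) (S := S) (β := β) (h := h) (u := u) (lam := lam) g₀ z)
    fun p => abs_log_baseF (R := k * R₀) hb g (p.map Prod.fst))
  unfold FX
  rw [e]
  linarith

/-- the mean of the size of the field -/
lemma abs_meanX_lam_le (hf : ∀ i, Continuous (fs i)) (hb : ∀ i x, |fs i x| ≤ B) (hR : 1 ≤ k * R₀) (hh : ∀ j, |h j| ≤ 1)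
    (hu : ∀ j, |u j| ≤ 1) (lam lam' : Fin R₀ → ℝ) :
    |meanX (FX (N := N) (n := n) (M := M) fs R₀ k S β h u lam) - meanX (FX (N := N) (n := n) (M := M) fs R₀ k S β h u lam')| ≤
      lamSum (lam - lam') * meanL1 N (k * R₀) n := by
  have i1 := intX_FX (N := N) (n := n) (M := M) (S := S) (β := β) (lam := lam) hf hb hR hh hu
  have i2 := intX_FX (N := N) (n := n) (M := M) (S := S) (β := β) (lam := lam') hf hb hR hh hu
  rw [← meanX_sub i1 i2]
  refine (abs_meanX_le (i1.sub i2)).trans ((meanX_mono (i1.sub i2).abs (intX_l1 _)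
    fun g z => abs_FX_lam_le hR lam lam' g z).trans_eq ?_)
  simp [meanX, meanL1, integral_const_mul]

lemma meanX_le_zero (hf : ∀ i, Continuous (fs i)) (hb : ∀ i x, |fs i x| ≤ B) (hR : 1 ≤ k * R₀) (hh : ∀ j, |h j| ≤ 1)
    (hu : ∀ j, |u j| ≤ 1) (lam : Fin R₀ → ℝ) :
    meanX (FX (N := N) (n := n) (M := M) fs R₀ k S β h u lam) ≤
      meanX (FX (N := N) (n := n) (M := 0) fs R₀ k S β h u lam) + M * B := by
  have i1 := intX_FX (N := N) (n := n) (M := M) (S := S) (β := β) (lam := lam) hf hb hR hh hu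
  have i0 : IntX (N := N) (M := M) (R := k * R₀) (n := n)
      fun _ z => FX fs R₀ k S β h u lam (fun a : Fin 0 => a.elim0) z :=
    intX_of_l1 (((continuous_FX hf).comp (continuous_const.prodMk continuous_id)).comp continuous_snd)
      fun g z => abs_FX_le hb hR hh hu _ z
  refine ((meanX_mono i1 (i0.add (intX_const (M * B))) fun g z => FX_le_zero hb hR lam g _ z).trans_eq ?_)
  rw [meanX_add i0 (intX_const _), meanX_const]
  congr 1
  unfold meanX
  rw [integral_const, probReal_univ, one_smul]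
  have e : ∀ g : Fin 0 → Fin N → ℝ, g = fun a => a.elim0 := fun g => funext fun a => a.elim0
  calc _ = ∫ _g, ∫ z, FX fs R₀ k S β h u lam (fun a : Fin 0 => a.elim0) z
        ∂gauss (Fin N × P157.Par.Ix (k * R₀) n) ∂pats N 0 := by rw [integral_const, probReal_univ, one_smul]
    _ = _ := integral_congr_ae (Filter.Eventually.of_forall fun g => by dsimp only; rw [e g])

lemma abs_meanX_str_le (hf : ∀ i, Continuous (fs i)) (hb : ∀ i x, |fs i x| ≤ B) (hR : 1 ≤ k * R₀) (hh : ∀ j, |h j| ≤ 1)
    (hu : ∀ j, |u j| ≤ 1) (hu' : ∀ j, |u' j| ≤ 1) (lam : Fin R₀ → ℝ) :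
    |meanX (FX (N := N) (n := n) (M := M) fs R₀ k S β h u lam) - meanX (FX (N := N) (n := n) (M := M) fs R₀ k S β h u' lam)| ≤
      2 * gainCap S β := by
  have i1 := intX_FX (N := N) (n := n) (M := M) (S := S) (β := β) (lam := lam) hf hb hR hh hu
  have i2 := intX_FX (N := N) (n := n) (M := M) (S := S) (β := β) (lam := lam) hf hb hR hh hu'
  rw [← meanX_sub i1 i2]
  exact (abs_meanX_le (i1.sub i2)).trans ((meanX_mono (i1.sub i2).abs (intX_const _)
    fun g z => abs_FX_sub_le hR hh hu hu' g z).trans_eq (meanX_const _))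

end Vale.Agent.P166.Hopf.Up
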