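import Vale.Agent.P157.Full.EnvOverlap
import Vale.Agent.P166.Hopf.Up.EnvLam

/-! The mean overlap profile over strengths, patterns and fields, and the variance of its block tails. -/

open MeasureTheory ProbabilityTheory Real Finset
open Vale.Agent.P150 (gauss)
open Vale.Agent.P168.MP (lin Batch avg avg_le_avg avg_const)

namespace Vale.Agent.P166.Hopf.Up

open Vale.Agent.P157
open Vale.Agent.P157.Full

open Vale.Agent.P157.Par (Prof dist1)

variable {A : Type} [Fintype A] {fs : ℕ → ℝ → ℝ} {N n M R₀ k S : ℕ} [NeZero N] {ι : Type} [Fintype ι]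
  [DecidableEq ι] {β : ι → Batch} {h : ι → ℝ} {U : A → ι → ℝ} {lam : Fin R₀ → ℝ}

/-- the mean overlap profile -/
noncomputable def rbar (fs : ℕ → ℝ → ℝ) (N n M R₀ k S : ℕ) [NeZero N] (β : ι → Batch) (h : ι → ℝ) (U : A → ι → ℝ)
    (lam : Fin R₀ → ℝ) (l : ℕ) : ℝ :=
  EX fun a g z => rX (N := N) (n := n) (M := M) fs R₀ k S β h (U a) lam g z l

lemma rbar_prof [Nonempty A] (hf : ∀ i, Continuous (fs i)) :
    Prof (k * R₀) (rbar fs N n M R₀ k S β h U lam) 1 ∧ rbar fs N n M R₀ k S β h U lam (k * R₀) = 1 := by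
  have hp := fun a g z => rX_prof (fs := fs) (N := N) (n := n) (M := M) (k := k) (S := S) (β := β) (h := h)
    (u := U a) (lam := lam) g z
  have htop : rbar fs N n M R₀ k S β h U lam (k * R₀) = 1 := by
    simp only [rbar, (hp _ _ _).2]; exact EX_const 1
  refine ⟨⟨?_, fun l hl => ?_, htop.le⟩, htop⟩
  · exact (EX_const 0).symm.trans_le (EX_mono (fun a => intX_const 0) (fun a => intX_rX hf 0)
      fun a g z => (hp a g z).1.zero)
  · exact EX_mono (fun a => intX_rX hf l) (fun a => intX_rX hf (l + 1)) fun a g z => (hp a g z).1.mono l hl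

/-- the block tail of the random profile -/
noncomputable def TX (fs : ℕ → ℝ → ℝ) (R₀ k S : ℕ) (β : ι → Batch) (h u : ι → ℝ) (lam : Fin R₀ → ℝ)
    (g : Fin M → Fin N → ℝ) (z : Fin N × P157.Par.Ix (k * R₀) n → ℝ) (j : ℕ) : ℝ :=
  tailAvg (k * R₀) (j * k) (rX fs R₀ k S β h u lam g z)

lemma continuous_TX (hf : ∀ i, Continuous (fs i)) {u : ι → ℝ} (j : ℕ) :
    Continuous fun x : (Fin M → Fin N → ℝ) × (Fin N × P157.Par.Ix (k * R₀) n → ℝ) =>
      TX fs R₀ k S β h u lam x.1 x.2 j := by
  unfold TX tailAvg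
  exact (continuous_finsetSum _ fun l _ => continuous_rX hf l).div_const _

lemma TX_mem {u : ι → ℝ} (g : Fin M → Fin N → ℝ) (z : Fin N × P157.Par.Ix (k * R₀) n → ℝ) (j : ℕ) :
    0 ≤ TX fs R₀ k S β h u lam g z j ∧ TX fs R₀ k S β h u lam g z j ≤ 1 :=
  tail_mem (rX_prof g z).1

lemma intX_TX (hf : ∀ i, Continuous (fs i)) {u : ι → ℝ} (j : ℕ) :
    IntX fun g z => TX (N := N) (n := n) (M := M) fs R₀ k S β h u lam g z j :=
  intX_of_bound (continuous_TX hf j) fun g z => abs_le.2
    ⟨by linarith [(TX_mem (fs := fs) (R₀ := R₀) (k := k) (S := S) (β := β) (h := h) (u := u) (lam := lam) g z j).1],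
      (TX_mem g z j).2⟩

lemma tail_rbar (hf : ∀ i, Continuous (fs i)) (j : ℕ) :
    tailAvg (k * R₀) (j * k) (rbar fs N n M R₀ k S β h U lam) =
      EX fun a g z => TX (N := N) (n := n) (M := M) fs R₀ k S β h (U a) lam g z j := by
  simp only [TX, tailAvg, rbar]
  rw [EX_div_const, EX_sum _ fun l _ a => intX_rX hf l]

lemma tail_meanX (hf : ∀ i, Continuous (fs i)) {u : ι → ℝ} (j : ℕ) :
    (tailAvg (k * R₀) (j * k) fun l => meanX (N := N) (M := M) fun g z => rX (N := N) (n := n) fs R₀ k S β h u lam g z l) =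
      meanX (N := N) (M := M) fun g z => TX (N := N) (n := n) fs R₀ k S β h u lam g z j := by
  simp only [TX, tailAvg]
  rw [meanX_div_const, meanX_sum _ fun l _ => intX_rX hf l]

/-- the variance of a block tail from the two integrations by parts and the concentration of the energy -/
lemma tail_var [Nonempty A] (hf : ∀ i, Continuous (fs i)) {j : Fin R₀} {e1 e2 Θ : ℝ} (hlam : 0 ≤ lam j)
    (h1 : |EX (fun a g z => HX (N := N) (n := n) (M := M) fs R₀ k S β h (U a) lam g z j) / N -
      lam j * (1 - tailAvg (k * R₀) (j * k) (rbar fs N n M R₀ k S β h U lam))| ≤ e1)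
    (h2 : |EX (fun a g z => HX (N := N) (n := n) (M := M) fs R₀ k S β h (U a) lam g z j *
        TX fs R₀ k S β h (U a) lam g z j) / N -
      lam j * EX (fun a g z => (1 - TX (N := N) (n := n) (M := M) fs R₀ k S β h (U a) lam g z j) *
        TX fs R₀ k S β h (U a) lam g z j)| ≤ e2)
    (h3 : EX (fun a g z => |HX (N := N) (n := n) (M := M) fs R₀ k S β h (U a) lam g z j / N -
      EX (fun a g z => HX (N := N) (n := n) (M := M) fs R₀ k S β h (U a) lam g z j) / N|) ≤ Θ) :
    lam j * EX (fun a g z => (TX (N := N) (n := n) (M := M) fs R₀ k S β h (U a) lam g z j -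
      tailAvg (k * R₀) (j * k) (rbar fs N n M R₀ k S β h U lam)) ^ 2) ≤ e1 + e2 + Θ := by
  rw [tail_rbar hf] at h1 ⊢
  set T := fun a g z => TX (N := N) (n := n) (M := M) fs R₀ k S β h (U a) lam g z j
  set H := fun a g z => HX (N := N) (n := n) (M := M) fs R₀ k S β h (U a) lam g z j
  set t := EX T
  set G' := EX H / (N : ℝ)
  have iT : ∀ a, IntX (T a) := fun a => intX_TX hf _
  have iH : ∀ a, IntX (H a) := fun a => intX_HX hf j
  have iTT : ∀ a, IntX fun g z => T a g z * T a g z := fun a =>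
    intX_of_bound ((continuous_TX hf _).mul (continuous_TX hf _)) (C := 1) fun g z => by
      obtain ⟨x0, x1⟩ := TX_mem (fs := fs) (R₀ := R₀) (k := k) (S := S) (β := β) (h := h) (u := U a) (lam := lam) g z j
      rw [abs_of_nonneg (mul_nonneg x0 x0)]
      exact mul_le_one₀ x1 x0 x1
  have iHT : ∀ a, IntX fun g z => H a g z * T a g z := fun a =>
    intX_of_l1 ((continuous_HX hf j).mul (continuous_TX hf _)) (A := 0) (C := 1) fun g z => by
      obtain ⟨x0, x1⟩ := TX_mem (fs := fs) (R₀ := R₀) (k := k) (S := S) (β := β) (h := h) (u := U a) (lam := lam) g z j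
      rw [abs_mul, abs_of_nonneg x0, zero_add, one_mul]
      exact (mul_le_of_le_one_right (abs_nonneg _) x1).trans (abs_HX_le g z j)
  have hvar : EX (fun a g z => (T a g z - t) ^ 2) = EX (fun a g z => T a g z * T a g z) - t * t := by
    rw [show (fun a g z => (T a g z - t) ^ 2) =
      fun a g z => T a g z * T a g z - (2 * t * T a g z - t * t) by funext a g z; ring,
      EX_sub iTT fun a => ((iT a).const_mul _).sub (intX_const _),
      EX_sub (fun a => (iT a).const_mul _) fun a => intX_const _, EX_const_mul, EX_const]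
    ring
  have hone : EX (fun a g z => (1 - T a g z) * T a g z) = t - EX (fun a g z => T a g z * T a g z) := by
    rw [show (fun a g z => (1 - T a g z) * T a g z) = fun a g z => T a g z - T a g z * T a g z by
      funext a g z; ring, EX_sub iT iTT]
  have hmix : |EX (fun a g z => H a g z * T a g z) / N - G' * t| ≤ Θ := by
    have e : EX (fun a g z => (H a g z / N - G') * T a g z) = EX (fun a g z => H a g z * T a g z) / N - G' * t := by
      rw [show (fun a g z => (H a g z / N - G') * T a g z) =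
          fun a g z => H a g z * T a g z / (N:ℝ) - G' * T a g z by funext a g z; ring,
        EX_sub (fun a => (iHT a).div_const _) (fun a => (iT a).const_mul _), EX_div_const, EX_const_mul]
    have iD : ∀ a, IntX fun g z => (H a g z / N - G') * T a g z := fun a => by
      rw [show (fun g z => (H a g z / N - G') * T a g z) =
          fun g z => H a g z * T a g z / (N:ℝ) - G' * T a g z by funext g z; ring]
      exact ((iHT a).div_const _).sub ((iT a).const_mul _)
    rw [← e]
    refine ((abs_EX_le iD).trans (EX_mono (fun a => (iD a).abs)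
      (fun a => (((iH a).div_const _).sub (intX_const _)).abs) fun a g z => ?_)).trans h3
    obtain ⟨x0, x1⟩ := TX_mem (fs := fs) (R₀ := R₀) (k := k) (S := S) (β := β) (h := h) (u := U a) (lam := lam) g z j
    rw [abs_mul, abs_of_nonneg x0]
    exact mul_le_of_le_one_right (abs_nonneg _) x1
  have ht : 0 ≤ t ∧ t ≤ 1 := ⟨(EX_const 0).symm.trans_le (EX_mono (fun a => intX_const 0) iT fun a g z =>
    (TX_mem g z j).1), (EX_mono iT (fun a => intX_const 1) fun a g z => (TX_mem g z j).2).trans_eq (EX_const 1)⟩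
  rw [hone] at h2
  rw [hvar]
  have h1' : |(G' - lam j * (1 - t)) * t| ≤ e1 := by
    rw [abs_mul, abs_of_nonneg ht.1]
    exact (mul_le_of_le_one_right (abs_nonneg _) ht.2).trans h1
  linarith [abs_le.1 hmix, abs_le.1 h1', abs_le.1 h2]

/-- close block tails in mean give close profiles in mean -/
lemma EX_dist_le [Nonempty A] (hf : ∀ i, Continuous (fs i)) (hR₀ : 1 ≤ R₀) (hk : 1 ≤ k) {σ v : ℝ} (hσ : 0 < σ)
    (hv : ∀ j : Fin R₀, EX (fun a g z => (TX (N := N) (n := n) (M := M) fs R₀ k S β h (U a) lam g z j -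
      tailAvg (k * R₀) (j * k) (rbar fs N n M R₀ k S β h U lam)) ^ 2) ≤ v) :
    EX (fun a g z => dist1 (k * R₀) (rX (N := N) (n := n) (M := M) fs R₀ k S β h (U a) lam g z)
        (rbar fs N n M R₀ k S β h U lam)) ≤ 2 / R₀ + R₀ * (v / σ + σ) := by
  set rb := rbar fs N n M R₀ k S β h U lam
  obtain ⟨hb1, hb2⟩ := rbar_prof (A := A) (U := U) (lam := lam) (k := k) (S := S) (β := β) (h := h) (N := N) (n := n) (M := M) hf
  set D := fun (j : Fin R₀) a g z => TX (N := N) (n := n) (M := M) fs R₀ k S β h (U a) lam g z j - tailAvg (k * R₀) (j * k) rb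
  have iD2 : ∀ j a, IntX fun g z => D j a g z ^ 2 := fun j a =>
    intX_of_bound (((continuous_TX hf _).sub continuous_const).pow 2) (C := 1) fun g z => by
      obtain ⟨x0, x1⟩ := TX_mem (fs := fs) (R₀ := R₀) (k := k) (S := S) (β := β) (h := h) (u := U a) (lam := lam) g z j
      obtain ⟨y0, y1⟩ := tail_mem (J := (j:ℕ) * k) hb1
      rw [abs_of_nonneg (sq_nonneg _), sq_le_one_iff_abs_le_one, abs_le]
      constructor <;> linarith
  have hpt : ∀ a g z, dist1 (k * R₀) (rX fs R₀ k S β h (U a) lam g z) rb ≤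
      2 / R₀ + ∑ j : Fin R₀, (D j a g z ^ 2 / σ + σ) := fun a g z => by
    refine (dist_block hR₀ hk (rX_prof g z).1 (rX_prof g z).2 hb1 hb2).trans (add_le_add le_rfl ?_)
    rw [← Fin.sum_univ_eq_sum_range (fun j => |tailAvg (k * R₀) (j * k) (rX fs R₀ k S β h (U a) lam g z) -
      tailAvg (k * R₀) (j * k) rb|), mul_sum]
    refine sum_le_sum fun j _ => ?_
    show 2 * |D j a g z| ≤ _
    rw [← sub_nonneg, show D j a g z ^ 2 / σ + σ - 2 * |D j a g z| = (|D j a g z| - σ) ^ 2 / σ by
      field_simp; rw [← sq_abs (D j a g z)]; ring]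
    positivity
  have iS : ∀ a, IntX fun g z => ∑ j : Fin R₀, (D j a g z ^ 2 / σ + σ) := fun a =>
    IntX.sum _ fun j _ => ((iD2 j a).div_const σ).add (intX_const σ)
  have iX : ∀ a, IntX fun g z => dist1 (k * R₀) (rX (N := N) (n := n) (M := M) fs R₀ k S β h (U a) lam g z) rb := fun a => by
    have hc : Continuous fun x : (Fin M → Fin N → ℝ) × (Fin N × P157.Par.Ix (k * R₀) n → ℝ) =>
        dist1 (k * R₀) (rX fs R₀ k S β h (U a) lam x.1 x.2) rb := by
      unfold dist1
      exact ((continuous_finsetSum _ fun l _ => ((continuous_rX hf l).sub continuous_const).abs).div_const _).add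
        ((continuous_rX hf _).sub continuous_const).abs
    refine intX_of_bound hc (C := 2) fun g z => ?_
    rw [abs_of_nonneg (P157.Par.dist1_nonneg _ _ _)]
    exact P157.Par.dist1_le_two (by nlinarith) (rX_prof g z).1 hb1
  refine (EX_mono iX (fun a => (intX_const (2 / (R₀:ℝ))).add (iS a)) hpt).trans ?_
  rw [EX_add (fun a => intX_const _) iS, EX_const,
    EX_sum _ fun j _ a => ((iD2 j a).div_const σ).add (intX_const σ)]
  refine add_le_add le_rfl ((sum_le_card_nsmul _ _ (v / σ + σ) fun j _ => ?_).trans_eq ?_)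
  · rw [EX_add (fun a => (iD2 j a).div_const σ) (fun a => intX_const σ), EX_div_const, EX_const]
    exact add_le_add (div_le_div_of_nonneg_right (hv j) hσ.le) le_rfl
  · rw [nsmul_eq_mul, card_univ, Fintype.card_fin]

end Vale.Agent.P166.Hopf.Up
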