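import Vale.Agent.P157.Full.EnvStep
import Vale.Agent.P166.Hopf.Up.EnvMax
import Vale.Agent.P166.Hopf.Up.EnvOverlap

/-! What the envelope takes from the modules on the perturbation, the field and the ends, and the
bound of one step in the number of patterns at a maximiser. -/

open MeasureTheory ProbabilityTheory Real Finset Filter
open Vale.Agent.P150 (gauss dot)
open Vale.Agent.P168.MP (lin Batch gainCap avg avg_le_avg avg_const allBatch BIdx gu)

namespace Vale.Agent.P166.Hopf.Up

open Vale.Agent.P157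
open Vale.Agent.P157.Full

open Vale.Agent.P157.Par (Sm Prof dist1 adev ovK qlev)


variable {A : Type} [Fintype A] [Nonempty A] {fs fs1 fs2 fs3 : ℕ → ℝ → ℝ} {B D : ℝ} {N n M R₀ k S : ℕ} [NeZero N]
  {ι : Type} [Fintype ι] [DecidableEq ι] {β : ι → Batch} {h : ι → ℝ} {U : A → ι → ℝ} {lam : Fin R₀ → ℝ}

lemma ibp_avg {j : Fin R₀} {e : ℝ} (hI : ∀ a, (|meanX (N := N) (M := M) (fun g z => HX (N := N) (n := n) fs R₀ k S β h (U a) lam g z j) -
        lam j * N * (1 - tailAvg (k * R₀) (j * k) fun l =>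
          meanX (N := N) (M := M) fun g z => rX (N := N) (n := n) fs R₀ k S β h (U a) lam g z l)| ≤ N * e ∧
      |meanX (N := N) (M := M) (fun g z => HX (N := N) (n := n) fs R₀ k S β h (U a) lam g z j *
          tailAvg (k * R₀) (j * k) (rX (N := N) (n := n) fs R₀ k S β h (U a) lam g z)) -
        lam j * N * meanX (N := N) (M := M) (fun g z =>
          (1 - tailAvg (k * R₀) (j * k) (rX (N := N) (n := n) fs R₀ k S β h (U a) lam g z)) *
            tailAvg (k * R₀) (j * k) (rX (N := N) (n := n) fs R₀ k S β h (U a) lam g z))| ≤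
        N * (12 * |lam j| * meanX (N := N) (M := M) (fun g z =>
          adev (k * R₀) (wX (N := N) (n := n) fs R₀ k S β h (U a) lam g z) (ovK (spinX cfg (k * R₀)))
            (rX (N := N) (n := n) fs R₀ k S β h (U a) lam g z)) + e)))
    (hf : ∀ i, Continuous (fs i)) {t : ℝ}
    (ht : EX (fun a => adX (N := N) (n := n) (M := M) fs R₀ k S β h (U a) lam) ≤ t) :
    |EX (fun a g z => HX (N := N) (n := n) (M := M) fs R₀ k S β h (U a) lam g z j) / N -
      lam j * (1 - tailAvg (k * R₀) (j * k) (rbar fs N n M R₀ k S β h U lam))| ≤ e ∧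
    |EX (fun a g z => HX (N := N) (n := n) (M := M) fs R₀ k S β h (U a) lam g z j *
        TX fs R₀ k S β h (U a) lam g z j) / N -
      lam j * EX (fun a g z => (1 - TX (N := N) (n := n) (M := M) fs R₀ k S β h (U a) lam g z j) *
        TX fs R₀ k S β h (U a) lam g z j)| ≤ 12 * |lam j| * t + e := by
  have hN : (0:ℝ) < N := by exact_mod_cast Nat.pos_of_ne_zero (NeZero.ne N)
  have key : ∀ (X Y : A → ℝ) (c : A → ℝ), (∀ a, |X a - lam j * N * Y a| ≤ N * c a) →
      |avg X / N - lam j * avg Y| ≤ avg c := fun X Y c hxy => by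
    have h1 := avg_le_avg (f := fun a => X a - lam j * N * Y a) (g := fun a => N * c a) fun a => (abs_le.1 (hxy a)).2
    have h2 := avg_le_avg (f := fun a => -(N * c a)) (g := fun a => X a - lam j * N * Y a) fun a => (abs_le.1 (hxy a)).1
    have e : avg X / N - lam j * avg Y = (avg X - lam j * N * avg Y) / N := by field_simp
    rw [e, abs_div, abs_of_pos hN, div_le_iff₀ hN, mul_comm (avg c), abs_le]
    simp only [avg, sum_sub_distrib, ← mul_sum, sub_div, mul_div_assoc, sum_neg_distrib, neg_div] at h1 h2 ⊢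
    exact ⟨h2, h1⟩
  refine ⟨?_, ?_⟩
  · rw [tail_rbar hf]
    have h1 := key (fun a => meanX (N := N) (M := M) fun g z => HX (N := N) (n := n) fs R₀ k S β h (U a) lam g z j)
      (fun a => 1 - meanX (N := N) (M := M) fun g z => TX (N := N) (n := n) fs R₀ k S β h (U a) lam g z j)
      (fun _ => e) fun a => by rw [← tail_meanX hf]; exact (hI a).1
    simpa only [EX, avg, sum_sub_distrib, sum_const, card_univ, nsmul_eq_mul, mul_one, sub_div,
      div_self (show (Fintype.card A : ℝ) ≠ 0 from Nat.cast_ne_zero.2 Fintype.card_ne_zero),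
      mul_div_cancel_left₀ _ (show (Fintype.card A : ℝ) ≠ 0 from Nat.cast_ne_zero.2 Fintype.card_ne_zero)] using h1
  · refine (key _ _ (fun a => 12 * |lam j| * meanX (adX (N := N) (n := n) (M := M) fs R₀ k S β h (U a) lam) + e)
      fun a => (hI a).2).trans ?_
    simp only [avg, sum_add_distrib, ← mul_sum, sum_const, card_univ, nsmul_eq_mul, add_div, mul_div_assoc]
    rw [← mul_div_assoc (Fintype.card A : ℝ) e, mul_div_cancel_left₀ _ (Nat.cast_ne_zero.2 Fintype.card_ne_zero)]
    exact add_le_add (mul_le_mul_of_nonneg_left ht (by positivity)) le_rfl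

/-- the value of one more pattern at a maximiser -/
lemma step_bound (hS : ∀ i, Sm (fs i) (fs1 i) (fs2 i) (fs3 i) B D) (i : ℕ) (hR₀ : 1 ≤ R₀) (hk : 1 ≤ k) {q₀ : ℕ → ℝ} (hq : Prof R₀ q₀ 1)
    (hq1 : q₀ R₀ = 1) {KL : ℝ} (hKL : 0 ≤ KL) (hL : P157.Par.PhiLip (fs i) KL) {e σ v : ℝ} (he : 0 ≤ e) (hσ : 0 < σ)
    (htail : ∀ j < R₀, tailAvg R₀ j q₀ - e ≤ tailAvg (k * R₀) (j * k) (rbar fs N n M R₀ k S β h U lam))
    (hv : ∀ j : Fin R₀, EX (fun a g z => (TX (N := N) (n := n) (M := M) fs R₀ k S β h (U a) lam g z j -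
      tailAvg (k * R₀) (j * k) (rbar fs N n M R₀ k S β h U lam)) ^ 2) ≤ v) :
    EX (fun a g z => P157.Par.Phi (fun y => exp (fs i y)) (k * R₀) (lin (k * R₀))
        (rX (N := N) (n := n) (M := M) fs R₀ k S β h (U a) lam g z)) ≤
      P157.Par.Phi (fun y => exp (fs i y)) R₀ (lin R₀) q₀ + D ^ 2 * e + KL * (2 / R₀ + R₀ * (v / σ + σ)) := by
  have hR : 1 ≤ k * R₀ := Nat.one_le_iff_ne_zero.2 (Nat.mul_ne_zero (by omega) (by omega))
  have hf : ∀ i, Continuous (fs i) := fun i => continuous_iff_continuousAt.2 fun x => ((hS i).d0 x).continuousAt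
  obtain ⟨hb1, hb2⟩ := rbar_prof (A := A) (U := U) (lam := lam) (k := k) (S := S) (β := β) (h := h) (N := N) (n := n) (M := M) hf
  set rb := rbar fs N n M R₀ k S β h U lam
  set P := fun r => P157.Par.Phi (fun y => exp (fs i y)) (k * R₀) (lin (k * R₀)) r
  have hr : Prof (k * R₀) (rep k q₀) 1 ∧ rep k q₀ (k * R₀) = 1 := by
    have e : rep k q₀ (k * R₀) = 1 := by rw [rep, Nat.mul_div_cancel_left _ (by omega)]; exact hq1
    refine ⟨⟨by simpa [rep] using hq.zero, fun l hl => ?_, e.le⟩, e⟩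
    have hd : (l + 1) / k ≤ R₀ := Nat.div_le_of_le_mul (by omega)
    exact hq.le_of_le (Nat.div_le_div_right (Nat.le_succ l)) hd
  have hup : P rb ≤ P157.Par.Phi (fun y => exp (fs i y)) R₀ (lin R₀) q₀ + D ^ 2 * e := by
    refine (phi_anti (hS i) hR hr.1 hb1 hr.2 hb2 he fun J hJ => tail_block hk (fun l hl => hb1.mono l (by omega)) he
      (fun j hj => ?_) hJ).trans_eq (by rw [Phi_rep (P157.Par.adm_exp (hS i)) hR₀ hk hq])
    rw [tailAvg_rep hk q₀ (R₀ - j) j (by omega)]
    exact htail j hj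
  set rr := fun a g z => rX (N := N) (n := n) (M := M) fs R₀ k S β h (U a) lam g z
  have iP : ∀ a, IntX fun g z => P (rr a g z) := fun a => by
    obtain ⟨hc, hb⟩ := P157.Par.cont_functional hR hKL (fun q q' h h' => hL _ q q' hR h h')
      (q := fun x : (Fin M → Fin N → ℝ) × (Fin N × P157.Par.Ix (k * R₀) n → ℝ) => rr a x.1 x.2)
      (fun x => (rX_prof x.1 x.2).1) fun l => continuous_rX hf l
    exact intX_of_bound hc fun g z => hb (g, z)
  have iX : ∀ a, IntX fun g z => dist1 (k * R₀) (rr a g z) rb := fun a => by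
    have hc : Continuous fun x : (Fin M → Fin N → ℝ) × (Fin N × P157.Par.Ix (k * R₀) n → ℝ) =>
        dist1 (k * R₀) (rr a x.1 x.2) rb := by
      unfold dist1
      exact ((continuous_finsetSum _ fun l _ => ((continuous_rX hf l).sub continuous_const).abs).div_const _).add
        ((continuous_rX hf _).sub continuous_const).abs
    refine intX_of_bound hc (C := 2) fun g z => ?_
    rw [abs_of_nonneg (P157.Par.dist1_nonneg _ _ _)]
    exact P157.Par.dist1_le_two hR (rX_prof g z).1 hb1
  refine (EX_mono iP (fun a => (intX_const (P rb)).add ((iX a).const_mul KL)) fun a g z => ?_).trans ?_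
  · have := (abs_le.1 (hL _ _ _ hR (rX_prof g z).1 hb1 : |P (rr a g z) - P rb| ≤ _)).2
    linarith
  · rw [EX_add (fun a => intX_const _) (fun a => (iX a).const_mul KL), EX_const, EX_const_mul]
    have := mul_le_mul_of_nonneg_left (EX_dist_le (A := A) (U := U) hf hR₀ hk hσ hv) hKL
    linarith

end Vale.Agent.P166.Hopf.Up
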