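import Vale.Agent.P157.Full.Envelope
import Vale.Agent.P166.Hopf.Up.EnvBlock
import Vale.Agent.P166.Hopf.Defs

/-! The upper bound of the pressure by the value of every path. -/

open MeasureTheory ProbabilityTheory Real Finset Filter
open scoped Topology
open Vale.Agent.P150 (gauss dot)
open Vale.Agent.P168.MP (lin Batch gainCap avg avg_le_avg avg_const allBatch BIdx gu)

namespace Vale.Agent.P166.Hopf.Up

open Vale.Agent.P157
open Vale.Agent.P157.Full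

open Vale.Agent.P157.Par (Sm Prof)

variable {fs fs1 fs2 fs3 : ℕ → ℝ → ℝ} {B D : ℝ}

lemma abs_pressF_le (hb : ∀ i x, |fs i x| ≤ B) (N M : ℕ) [NeZero N] : |pressF fs N M| ≤ B * M / N := by
  rw [pressF, abs_div, Nat.abs_cast]
  refine div_le_div_of_nonneg_right ?_ (Nat.cast_nonneg _)
  have hw : ∑ σ : Fin N → Bool, Lim.wt N σ = 1 := by simp [Lim.wt]
  have hz : ∀ g : Fin M → Fin N → ℝ, |log (∑ σ, Lim.wt N σ * hamF fs g σ)| ≤ B * M := fun g => by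
    have ha : ∀ σ, exp (-(B * M)) ≤ hamF fs g σ ∧ hamF fs g σ ≤ exp (B * M) := fun σ => by
      have := abs_le.1 ((abs_sum_le_sum_abs (fun a : Fin M => fs (a : ℕ) (dot (Lim.xv N σ) (g a))) univ).trans
        ((sum_le_sum fun a _ => hb _ _).trans_eq (show ∑ _a : Fin M, B = B * M by simp [mul_comm])))
      exact ⟨exp_le_exp.2 this.1, exp_le_exp.2 this.2⟩
    have hn : ∀ σ, (0:ℝ) ≤ Lim.wt N σ := fun σ => by unfold Lim.wt; positivity
    have h1 : exp (-(B * M)) ≤ ∑ σ, Lim.wt N σ * hamF fs g σ := by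
      refine le_trans (by rw [← sum_mul, hw, one_mul]) (sum_le_sum fun σ _ =>
        mul_le_mul_of_nonneg_left (ha σ).1 (hn σ))
    have h2 : ∑ σ, Lim.wt N σ * hamF fs g σ ≤ exp (B * M) := by
      refine (sum_le_sum fun σ _ => mul_le_mul_of_nonneg_left (ha σ).2 (hn σ)).trans ?_
      rw [← sum_mul, hw, one_mul]
    have h0 := (exp_pos _).trans_le h1
    exact abs_le.2 ⟨(le_log_iff_exp_le h0).2 h1, (log_le_iff_le_exp h0).2 h2⟩
  simpa using norm_integral_le_of_norm_le_const (μ := Par.pats N M) (C := B * M)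
    (f := fun g => log (∑ σ, Lim.wt N σ * hamF fs g σ))
    (Eventually.of_forall fun g => (norm_eq_abs _).trans_le (hz g))

/-- induction over maximisers with increments that depend on the step -/
lemma climbV {X : Type} {s : Set X} {G : ℕ → X → ℝ} {J : ℝ} {c : ℕ → ℝ} {M₀ : ℕ} (h0 : ∀ x ∈ s, G 0 x ≤ J)
    (hmax : ∀ M, ∃ x ∈ s, ∀ y ∈ s, G M y ≤ G M x)
    (hstep : ∀ M < M₀, ∀ x ∈ s, (∀ y ∈ s, G (M + 1) y ≤ G (M + 1) x) → G (M + 1) x ≤ G M x + c M) :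
    ∀ M ≤ M₀, ∀ x ∈ s, G M x ≤ J + ∑ a ∈ range M, c a := by
  intro M
  induction M with
  | zero => intro _ x hx; simpa using h0 x hx
  | succ M ih =>
    intro hM y hy
    obtain ⟨x, hx, hm⟩ := hmax (M + 1)
    refine (hm y hy).trans ((hstep M hM x hx hm).trans ?_)
    have := ih (by omega) x hx
    rw [sum_range_succ]
    linarith

section fixed
variable {A : Type} [Fintype A] [Nonempty A] {N n M R₀ k S : ℕ} [NeZero N]
  {ι : Type} [Fintype ι] [DecidableEq ι] {β : ι → Batch} {h : ι → ℝ} {U : A → ι → ℝ} {q₀ : ℕ → ℝ} {η : ℝ}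

/-- the start: the objective without patterns -/
lemma zero_value {e : ℝ} (lam : Fin R₀ → ℝ)
    (hn1 : ∀ a, |meanX (N := N) (M := 0) (FX (N := N) (n := n) fs R₀ k S β h (U a) lam) -
        N * (psiH R₀ (lamPath lam) + lamPath lam R₀ / 2)| ≤ gainCap S β + N * e) :
    GX fs N n 0 R₀ k S β h U q₀ η lam ≤
      psiH R₀ (lamPath lam) + dotH R₀ (lamPath lam) q₀ / 2 + η * ∑ i, log (lam i) + (gainCap S β / N + e) := by
  have hN : (0:ℝ) < N := by exact_mod_cast Nat.pos_of_ne_zero (NeZero.ne N)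
  have hE0 : EX (fun a => FX (N := N) (n := n) (M := 0) fs R₀ k S β h (U a) lam) ≤
      N * (psiH R₀ (lamPath lam) + lamPath lam R₀ / 2) + (gainCap S β + N * e) :=
    (avg_le_avg fun a => by linarith [(abs_le.1 (hn1 a)).2]).trans_eq (avg_const _)
  have := div_le_div_of_nonneg_right hE0 hN.le
  rw [add_div, add_div, mul_div_cancel_left₀ _ hN.ne', mul_div_cancel_left₀ _ hN.ne'] at this
  rw [GX, affX_eq]
  linarith

/-- the end: small amplitudes see the pressure -/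
lemma low_value (hE : GeX fs) (hR₀ : 1 ≤ R₀) (hk : 1 ≤ k) (hh : ∀ j, |h j| ≤ 1) (hU : ∀ a j, |U a j| ≤ 1)
    (hq : Prof R₀ q₀ 1) (hη : 0 ≤ η) (l1 : ℝ) :
    pressF fs N M ≤ GX fs N n M R₀ k S β h U q₀ η (fun _ => l1) +
      (gainCap S β / N + R₀ * (l1 ^ 2 + η * |log l1|)) := by
  have hN : (0:ℝ) < N := by exact_mod_cast Nat.pos_of_ne_zero (NeZero.ne N)
  have h1 : N * pressF fs N M - gainCap S β ≤
      EX (fun a => FX (N := N) (n := n) (M := M) fs R₀ k S β h (U a) fun _ => l1) :=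
    (avg_const _).symm.trans_le (avg_le_avg fun a => hE hR₀ hk β h (U a) hh (hU a) _)
  have h2 := div_le_div_of_nonneg_right h1 hN.le
  rw [sub_div, mul_div_cancel_left₀ _ hN.ne'] at h2
  have ha : ∀ i : Fin R₀, -(l1 ^ 2 + η * |log l1|) ≤ aCoef R₀ q₀ i * l1 ^ 2 + η * log l1 := fun i => by
    have : -1 ≤ aCoef R₀ q₀ i := by
      have := (tail_mem (J := (i:ℕ)) hq).1
      unfold aCoef; linarith
    have := mul_le_mul_of_nonneg_right this (sq_nonneg l1)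
    have := mul_le_mul_of_nonneg_left (neg_abs_le (log l1)) hη
    linarith
  have h3 : -(R₀ * (l1 ^ 2 + η * |log l1|)) ≤ affX q₀ η (fun _ : Fin R₀ => l1) := by
    refine le_trans ?_ (card_nsmul_le_sum _ _ _ fun i _ => ha i)
    rw [nsmul_eq_mul, card_univ, Fintype.card_fin, mul_neg]
  rw [GX]
  linarith

/-- a maximiser is inside the box -/
lemma interior (hf : ∀ i, Continuous (fs i)) (hb : ∀ i x, |fs i x| ≤ B) (hR : 1 ≤ k * R₀) (hh : ∀ j, |h j| ≤ 1)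
    (hU : ∀ a j, |U a j| ≤ 1) {α c C e L : ℝ} (hMN : (M:ℝ) ≤ α * N) (hc : 0 < c) (hη : 0 < η) (hη1 : η ≤ 1)
    (hR₀ : 1 ≤ R₀) (hco : ∀ (h : ℕ → ℝ) (V : ℝ), Prof R₀ h V → psiH R₀ h + dotH R₀ h q₀ / 2 ≤ C - c * h (R₀ - 1))
    (lam : Fin R₀ → ℝ) (hl : ∀ i, 0 < lam i)
    (hz : GX fs N n 0 R₀ k S β h U q₀ η lam ≤
      psiH R₀ (lamPath lam) + dotH R₀ (lamPath lam) q₀ / 2 + η * ∑ i, log (lam i) + e)
    (hL : -L ≤ GX fs N n M R₀ k S β h U q₀ η lam) (j : Fin R₀) :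
    lam j ≤ √(2 * ((C + α * B + e) + L + R₀ / (2 * c)) / c) ∧
      exp (-((C + α * B + e) + L + R₀ / (2 * c)) / η) ≤ lam j := by
  have hN : (0:ℝ) < N := by exact_mod_cast Nat.pos_of_ne_zero (NeZero.ne N)
  have hup : EX (fun a => FX (N := N) (n := n) (M := M) fs R₀ k S β h (U a) lam) / N ≤
      EX (fun a => FX (N := N) (n := n) (M := 0) fs R₀ k S β h (U a) lam) / N + α * B := by
    refine (div_le_div_of_nonneg_right (EX_le_zero hf hb hR hh hU lam) hN.le).trans ?_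
    rw [add_div]
    refine add_le_add le_rfl ?_
    rw [mul_div_right_comm]
    exact mul_le_mul_of_nonneg_right ((div_le_iff₀ hN).2 hMN) ((abs_nonneg _).trans (hb 0 0))
  have hco' := hco (lamPath lam) _ (prof_lamPath lam)
  rw [lamPath_top lam (show R₀ ≤ R₀ - 1 + 1 by omega)] at hco'
  refine confine hc hη hη1 lam hl ?_ j
  simp only [GX] at hL hz
  linarith

/-- one pattern at a maximiser with room around it -/
lemma step_at (hF : FieldX fs D) {Kp : ℝ} (hKp : 0 ≤ Kp) (hP : StepX fs Kp) (hS : ∀ i, Sm (fs i) (fs1 i) (fs2 i) (fs3 i) B D)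
    (hb : ∀ i x, |fs i x| ≤ B) (hR₀ : 1 ≤ R₀) (hk : 1 ≤ k) (hh : ∀ j, |h j| ≤ 1) (hU : ∀ a j, |U a j| ≤ 1)
    (hq : Prof R₀ q₀ 1) (hq1 : q₀ R₀ = 1) {KL : ℝ} (hKL : 0 ≤ KL) (hL : P157.Par.PhiLip (fs M) KL)
    {α lo hi δ e t σ w : ℝ} (hMN : ((M + 1 : ℕ):ℝ) ≤ α * N) (hlo : 0 < lo) (hη : 0 ≤ η) {lam : Fin R₀ → ℝ}
    (hbox : ∀ i, lo ≤ lam i ∧ lam i ≤ hi)
    (hmax : ∀ lam', (∀ i, lo ≤ lam' i ∧ lam' i ≤ hi) →
      GX fs N n (M + 1) R₀ k S β h U q₀ η lam' ≤ GX fs N n (M + 1) R₀ k S β h U q₀ η lam)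
    (hδ : 0 < δ) (hroom : ∀ j, lo ≤ lam j - δ ∧ lam j + δ ≤ hi ∧ δ ≤ lam j / 2) (he : 0 ≤ e) (hσ : 0 < σ)
    (hI : ∀ a (j : Fin R₀), (|meanX (N := N) (M := M + 1) (fun g z => HX (N := N) (n := n) fs R₀ k S β h (U a) lam g z j) -
        lam j * N * (1 - tailAvg (k * R₀) (j * k) fun l =>
          meanX (N := N) (M := M + 1) fun g z => rX (N := N) (n := n) fs R₀ k S β h (U a) lam g z l)| ≤ N * e ∧
      |meanX (N := N) (M := M + 1) (fun g z => HX (N := N) (n := n) fs R₀ k S β h (U a) lam g z j *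
          tailAvg (k * R₀) (j * k) (rX (N := N) (n := n) fs R₀ k S β h (U a) lam g z)) -
        lam j * N * meanX (N := N) (M := M + 1) (fun g z =>
          (1 - tailAvg (k * R₀) (j * k) (rX (N := N) (n := n) fs R₀ k S β h (U a) lam g z)) *
            tailAvg (k * R₀) (j * k) (rX (N := N) (n := n) fs R₀ k S β h (U a) lam g z))| ≤
        N * (12 * |lam j| * meanX (N := N) (M := M + 1) (fun g z =>
          P157.Par.adev (k * R₀) (wX (N := N) (n := n) fs R₀ k S β h (U a) lam g z) (P157.Par.ovK (spinX cfg (k * R₀)))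
            (rX (N := N) (n := n) fs R₀ k S β h (U a) lam g z)) + e)))
    (had : ∀ M', EX (fun a => adX (N := N) (n := n) (M := M') fs R₀ k S β h (U a) lam) ≤ t)
    (hnum : 2 * e + 12 * hi * t + ((1 / 2 + 2 * η / lo ^ 2) * δ +
        3 * ((3 * (√N * √(α * D ^ 2 + R₀ * hi ^ 2)) + 2 * gainCap S β) / N) / δ) ≤ lo * w) :
    GX fs N n (M + 1) R₀ k S β h U q₀ η lam ≤ GX fs N n M R₀ k S β h U q₀ η lam +
      (P157.Par.Phi (fun y => exp (fs M y)) R₀ (lin R₀) q₀ + D ^ 2 * (e / lo) + KL * (2 / R₀ + R₀ * (w / σ + σ)) + Kp * t) / N := by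
  have hf : ∀ i, Continuous (fs i) := fun i => continuous_iff_continuousAt.2 fun x => ((hS i).d0 x).continuousAt
  have hblock := fun j => block_at_max (α := α) (δ := δ) hF hf hb hR₀ hk hh hU hq hMN hlo hη hbox hmax hδ j
    (hroom j).1 (hroom j).2.1 (hroom j).2.2 he (fun a => hI a j) (had (M + 1))
  have hv : ∀ j : Fin R₀, EX (fun a g z => (TX (N := N) (n := n) (M := M + 1) fs R₀ k S β h (U a) lam g z j -
      tailAvg (k * R₀) (j * k) (rbar fs N n (M + 1) R₀ k S β h U lam)) ^ 2) ≤ w := fun j => by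
    refine le_of_mul_le_mul_left ?_ hlo
    refine (mul_le_mul_of_nonneg_right (hbox j).1 ((EX_const 0).symm.trans_le (EX_mono (fun _ => intX_const 0)
      (fun a => intX_of_bound (((continuous_TX hf _).sub continuous_const).pow 2) (C := 1) fun g z => ?_)
      fun a g z => sq_nonneg _))).trans ((hblock j).2.trans hnum)
    obtain ⟨x0, x1⟩ := TX_mem (fs := fs) (R₀ := R₀) (k := k) (S := S) (β := β) (h := h) (u := U a) (lam := lam) g z j
    obtain ⟨y0, y1⟩ := tail_mem (J := (j:ℕ) * k) (rbar_prof (A := A) (U := U) (lam := lam)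
      (k := k) (S := S) (β := β) (h := h) (N := N) (n := n) (M := M + 1) hf).1
    rw [abs_of_nonneg (sq_nonneg _), sq_le_one_iff_abs_le_one, abs_le]
    constructor <;> linarith
  exact one_pattern hKp hP hR₀ hk hh hU (step_bound hS M hR₀ hk hq hq1 hKL hL (div_nonneg he hlo.le) hσ
    (fun j hj => (hblock ⟨j, hj⟩).1) hv) (had M)

/-- the bound at a fixed dimension -/
lemma upper_at (hF : FieldX fs D) (hE : GeX fs) {Kp : ℝ} (hKp : 0 ≤ Kp) (hP : StepX fs Kp) (hS : ∀ i, Sm (fs i) (fs1 i) (fs2 i) (fs3 i) B D)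
    (hb : ∀ i x, |fs i x| ≤ B) (hR₀ : 1 ≤ R₀) (hk : 1 ≤ k) (hh : ∀ j, |h j| ≤ 1) (hU : ∀ a j, |U a j| ≤ 1)
    {KL : ℝ} (hKL : 0 ≤ KL) (hL : ∀ i, P157.Par.PhiLip (fs i) KL) {h₀ : ℕ → ℝ} {V₀ : ℝ} (hh₀ : Prof R₀ h₀ V₀)
    {α c C l1 lo hi δ e t σ w ε : ℝ} {P : ℕ → ℝ} {M₀ : ℕ} (hM₀ : (M₀:ℝ) ≤ α * N) (hη : 0 < η) (hη1 : η ≤ 1) (hc : 0 < c)
    (hco : ∀ (h : ℕ → ℝ) (V : ℝ), Prof R₀ h V →
      psiH R₀ h + dotH R₀ h (qh R₀ h₀) / 2 ≤ C - c * h (R₀ - 1))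
    (hε : ε ≤ 1) (hlo : 0 < lo) (hlo1 : lo ≤ l1) (hl1 : l1 ≤ hi) (hlog : η * (R₀ * log hi) ≤ ε)
    (he1 : R₀ * (l1 ^ 2 + η * |log l1|) ≤ 2 * ε) (hgN : gainCap S β / N ≤ ε)
    (hδ : 0 < δ) (hhi : √(2 * ((C + α * B + 3) + (α * B + 3) + R₀ / (2 * c)) / c) + δ ≤ hi)
    (hx1 : lo + δ ≤ exp (-((C + α * B + 3) + (α * B + 3) + R₀ / (2 * c)) / η))
    (hx2 : 2 * δ ≤ exp (-((C + α * B + 3) + (α * B + 3) + R₀ / (2 * c)) / η))
    (he : 0 ≤ e) (hσ : 0 < σ)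
    (hnum : 2 * e + 12 * hi * t + ((1 / 2 + 2 * η / lo ^ 2) * δ +
        3 * ((3 * (√N * √(α * D ^ 2 + R₀ * hi ^ 2)) + 2 * gainCap S β) / N) / δ) ≤ lo * w)
    (hP' : ∀ M, P157.Par.Phi (fun y => exp (fs M y)) R₀ (lin R₀) (qh R₀ h₀) + D ^ 2 * (e / lo) +
      KL * (2 / R₀ + R₀ * (w / σ + σ)) + Kp * t ≤ P M)
    (hn1 : ∀ (lam : Fin R₀ → ℝ), (∀ i, 0 ≤ lam i ∧ lam i ≤ hi) → ∀ a,
      |meanX (N := N) (M := 0) (FX (N := N) (n := n) fs R₀ k S β h (U a) lam) -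
        N * (psiH R₀ (lamPath lam) + lamPath lam R₀ / 2)| ≤ gainCap S β + N * ε)
    (hn2 : ∀ M ≤ M₀, ∀ a, ∀ (lam : Fin R₀ → ℝ), (∀ i, 0 ≤ lam i ∧ lam i ≤ hi) → ∀ (j : Fin R₀),
      |meanX (N := N) (M := M) (fun g z => HX (N := N) (n := n) fs R₀ k S β h (U a) lam g z j) -
        lam j * N * (1 - tailAvg (k * R₀) (j * k) fun l =>
          meanX (N := N) (M := M) fun g z => rX (N := N) (n := n) fs R₀ k S β h (U a) lam g z l)| ≤ N * e ∧
      |meanX (N := N) (M := M) (fun g z => HX (N := N) (n := n) fs R₀ k S β h (U a) lam g z j *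
          tailAvg (k * R₀) (j * k) (rX (N := N) (n := n) fs R₀ k S β h (U a) lam g z)) -
        lam j * N * meanX (N := N) (M := M) (fun g z =>
          (1 - tailAvg (k * R₀) (j * k) (rX (N := N) (n := n) fs R₀ k S β h (U a) lam g z)) *
            tailAvg (k * R₀) (j * k) (rX (N := N) (n := n) fs R₀ k S β h (U a) lam g z))| ≤
        N * (12 * |lam j| * meanX (N := N) (M := M) (fun g z =>
          P157.Par.adev (k * R₀) (wX (N := N) (n := n) fs R₀ k S β h (U a) lam g z) (P157.Par.ovK (spinX cfg (k * R₀)))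
            (rX (N := N) (n := n) fs R₀ k S β h (U a) lam g z)) + e))
    (had : ∀ M (lam : Fin R₀ → ℝ), EX (fun a => adX (N := N) (n := n) (M := M) fs R₀ k S β h (U a) lam) ≤ t) :
    pressF fs N M₀ ≤
      psiH R₀ h₀ + dotH R₀ h₀ (qh R₀ h₀) / 2 + (∑ a ∈ range M₀, P a) / N + 6 * ε := by
  have hf : ∀ i, Continuous (fs i) := fun i => continuous_iff_continuousAt.2 fun x => ((hS i).d0 x).continuousAt
  have hN : (0:ℝ) < N := by exact_mod_cast Nat.pos_of_ne_zero (NeZero.ne N)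
  have hR : 1 ≤ k * R₀ := Nat.one_le_iff_ne_zero.2 (Nat.mul_ne_zero (by omega) (by omega))
  obtain ⟨hq, hq1⟩ := qh_prof hR₀ hh₀
  have hzero : ∀ lam : Fin R₀ → ℝ, (∀ i, lo ≤ lam i ∧ lam i ≤ hi) → GX fs N n 0 R₀ k S β h U (qh R₀ h₀) η lam ≤
      psiH R₀ (lamPath lam) + dotH R₀ (lamPath lam) (qh R₀ h₀) / 2 + η * ∑ i, log (lam i) + 2 * ε := fun lam hlam =>
    (zero_value lam (hn1 lam fun i => ⟨hlo.le.trans (hlam i).1, (hlam i).2⟩)).trans (by linarith)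
  have hlow : ∀ M, pressF fs N M ≤
      GX fs N n M R₀ k S β h U (qh R₀ h₀) η (fun _ => l1) + 3 * ε := fun M =>
    (low_value (M := M) hE hR₀ hk hh hU hq hη.le l1).trans (by linarith)
  have h1box : ∀ i : Fin R₀, lo ≤ (fun _ => l1) i ∧ (fun _ : Fin R₀ => l1) i ≤ hi := fun _ => ⟨hlo1, hl1⟩
  have main := climbV (s := {x : Fin R₀ → ℝ | ∀ i, lo ≤ x i ∧ x i ≤ hi})
    (G := fun M => GX fs N n M R₀ k S β h U (qh R₀ h₀) η)
    (J := psiH R₀ h₀ + dotH R₀ h₀ (qh R₀ h₀) / 2 + 3 * ε) (c := fun a => P a / N) (M₀ := M₀)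
    (fun lam hlam => by
      refine (hzero lam hlam).trans ?_
      have := psi_tangent hR₀ ((prof_lamPath lam).weaken (le_max_left _ V₀)) (hh₀.weaken (le_max_right _ _))
      have : η * ∑ i, log (lam i) ≤ ε := by
        refine le_trans ?_ hlog
        refine mul_le_mul_of_nonneg_left ((sum_le_card_nsmul _ _ (log hi) fun i _ =>
          log_le_log (hlo.trans_le (hlam i).1) (hlam i).2).trans_eq ?_) hη.le
        rw [nsmul_eq_mul, card_univ, Fintype.card_fin]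
      linarith)
    (fun M => exists_max (A := A) (U := U) (N := N) (n := n) (M := M) (S := S) (β := β) hf hb hR hh hU hlo
      (hlo1.trans hl1))
    (fun M hM lam hbox hmax => by
      have hMN : ((M + 1 : ℕ):ℝ) ≤ α * N := (show ((M + 1 : ℕ):ℝ) ≤ M₀ by exact_mod_cast hM).trans hM₀
      have hpos : ∀ i, 0 < lam i := fun i => hlo.trans_le (hbox i).1
      have hp' : -(α * B) ≤ pressF fs N (M + 1) := by
        refine (neg_le_neg ?_).trans (neg_abs_le _)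
        refine (abs_pressF_le hb N (M + 1)).trans ?_
        rw [mul_div_assoc, mul_comm α]
        exact mul_le_mul_of_nonneg_left ((div_le_iff₀ hN).2 hMN) ((abs_nonneg _).trans (hb 0 0))
      have hin := interior (α := α) (e := 3) (L := α * B + 3) hf hb hR hh hU hMN hc hη hη1 hR₀ hco lam hpos
        ((hzero lam hbox).trans (by linarith)) (by linarith [hlow (M + 1), hmax _ h1box])
      refine (step_at (α := α) hF hKp hP hS hb hR₀ hk hh hU hq hq1 hKL (hL M) hMN hlo hη.le hbox hmax hδ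
        (fun j => ⟨by linarith [(hin j).2], by linarith [(hin j).1], by linarith [(hin j).2]⟩) he hσ
        (fun a => hn2 (M + 1) hM a lam fun i => ⟨(hpos i).le, (hbox i).2⟩) (fun M' => had M' lam) hnum).trans ?_
      exact add_le_add le_rfl (div_le_div_of_nonneg_right (hP' M) hN.le))
    M₀ le_rfl (fun _ => l1) h1box
  rw [sum_div]
  linarith [hlow M₀]

end fixed

/-- for a fixed path: the pressure is at most its value up to the accuracy of the block comparison,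
uniformly in the sequence of potentials -/
theorem upper_fine (hG : GridX) {Kp : ℝ} (hKp : 0 ≤ Kp) {α : ℝ} (hα : 0 < α) {KL : ℝ} (hKL : 0 ≤ KL)
    {R₀ : ℕ} {h₀ : ℕ → ℝ} {V₀ : ℝ} (hR₀ : 1 ≤ R₀) (hh₀ : Prof R₀ h₀ V₀) {ε₁ : ℝ} (hε₁ : 0 < ε₁) :
    ∀ᶠ N : ℕ in atTop, ∀ fs fs1 fs2 fs3 : ℕ → ℝ → ℝ, FieldX fs D → IbpX fs → ZeroX fs → GeX fs → StepX fs Kp →
      (∀ i, Sm (fs i) (fs1 i) (fs2 i) (fs3 i) B D) → (∀ i x, fs i x ≤ B) → (∀ i, Par.PhiLip (fs i) KL) →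
      pressF fs N ⌊α * N⌋₊ ≤ spinH R₀ h₀ +
        (∑ a ∈ range ⌊α * N⌋₊, Par.Phi (fun y => exp (fs a y)) R₀ (lin R₀) (qh R₀ h₀)) / N +
        α * (KL * (2 / R₀) + 5 * ε₁) + 7 * ε₁ := by
  have hR0 : (1:ℝ) ≤ R₀ := by exact_mod_cast hR₀
  obtain ⟨c, C, hc, hco⟩ := psi_coercive hR₀ hh₀
  obtain ⟨ε₂, hε₂, hε₂1, hε₂ε⟩ : ∃ ε₂, 0 < ε₂ ∧ ε₂ ≤ 1 ∧ ε₂ ≤ ε₁ :=
    ⟨min ε₁ 1, lt_min hε₁ one_pos, min_le_right _ _, min_le_left _ _⟩
  obtain ⟨l1, hl1, hl1', hl1sq⟩ : ∃ l1 : ℝ, 0 < l1 ∧ l1 ≤ 1 ∧ R₀ * l1 ^ 2 ≤ ε₂ := by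
    refine ⟨ε₂ / R₀, by positivity, (div_le_one (by positivity)).2 (hε₂1.trans hR0), ?_⟩
    rw [show (R₀:ℝ) * (ε₂ / R₀) ^ 2 = ε₂ * (ε₂ / R₀) by field_simp]
    exact mul_le_of_le_one_right hε₂.le ((div_le_one (by positivity)).2 (hε₂1.trans hR0))
  obtain ⟨hi, hhi, hhi'⟩ : ∃ hi : ℝ, 1 ≤ hi ∧
      √(2 * ((C + α * B + 3) + (α * B + 3) + R₀ / (2 * c)) / c) + 1 ≤ hi :=
    ⟨_, le_add_of_nonneg_left (sqrt_nonneg _), le_rfl⟩
  obtain ⟨η, hη, hη1, hηlog⟩ : ∃ η : ℝ, 0 < η ∧ η ≤ 1 ∧ η * (R₀ * (log hi + |log l1| + 1)) ≤ ε₂ := by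
    have := log_nonneg hhi
    refine ⟨min 1 (ε₂ / (R₀ * (log hi + |log l1| + 1))), lt_min one_pos (by positivity), min_le_left _ _, ?_⟩
    rw [← le_div_iff₀ (by positivity)]
    exact min_le_right _ _
  obtain ⟨σ, hσ, hKLσ⟩ : ∃ σ : ℝ, 0 < σ ∧ KL * R₀ * σ ≤ ε₂ := by
    refine ⟨ε₂ / (KL * R₀ + 1), by positivity, ?_⟩
    rw [mul_div_assoc', div_le_iff₀ (by positivity)]
    nlinarith
  have hlog0 := log_nonneg hhi
  set xm := exp (-((C + α * B + 3) + (α * B + 3) + R₀ / (2 * c)) / η) with hxm'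
  have hxm : 0 < xm := exp_pos _
  set lo := min l1 (xm / 2)
  have hlo : 0 < lo := lt_min hl1 (by positivity)
  obtain ⟨τ, hτ, hτe⟩ : ∃ τ : ℝ, 0 < τ ∧ lo * (σ * σ) = 4 * τ := ⟨lo * (σ * σ) / 4, by positivity, by ring⟩
  obtain ⟨δ, hδ, hδx, hδ1, hδC⟩ : ∃ δ : ℝ, 0 < δ ∧ δ ≤ xm / 2 ∧ δ ≤ 1 ∧ (1 / 2 + 2 * η / lo ^ 2) * δ ≤ τ := by
    refine ⟨min (xm / 2) (min 1 (τ / (1 / 2 + 2 * η / lo ^ 2))),
      lt_min (by positivity) (lt_min one_pos (by positivity)), min_le_left _ _,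
      (min_le_right _ _).trans (min_le_left _ _), ?_⟩
    rw [← le_div_iff₀' (by positivity)]
    exact (min_le_right _ _).trans (min_le_right _ _)
  obtain ⟨e, he, heτ, heD⟩ : ∃ e : ℝ, 0 < e ∧ e ≤ τ ∧ e ≤ lo * ε₂ / (D ^ 2 + 1) :=
    ⟨_, lt_min hτ (by positivity), min_le_left _ _, min_le_right _ _⟩
  obtain ⟨t, ht, htτ, htK⟩ : ∃ t : ℝ, 0 < t ∧ t ≤ τ / (12 * hi) ∧ t ≤ ε₂ / (Kp + 1) :=
    ⟨_, lt_min (by positivity) (by positivity), min_le_left _ _, min_le_right _ _⟩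
  obtain ⟨Rg, hRg⟩ := hG ht
  obtain ⟨k, hk, hkR⟩ : ∃ k : ℕ, 1 ≤ k ∧ Rg ≤ k * R₀ :=
    ⟨max Rg 1, le_max_right _ _, (le_max_left _ _).trans (Nat.le_mul_of_pos_right _ hR₀)⟩
  obtain ⟨S, Kg, hp, ub, -, hKg, hp0, hp1, hub, hub1, hgrid⟩ := hRg (k * R₀) hkR
  have : NeZero Kg := ⟨hKg.ne'⟩
  have hR : 1 ≤ k * R₀ := Nat.one_le_iff_ne_zero.2 (Nat.mul_ne_zero (by omega) (by omega))
  have hh : ∀ _j : BIdx (k * R₀) 2, |hp| ≤ 1 := fun _ => by rw [abs_of_pos hp0]; exact hp1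
  have hU : ∀ (a : BIdx (k * R₀) 2 → Fin Kg) j, |gu ub Kg a j| ≤ 1 := fun a j => by
    obtain ⟨x, y⟩ := Vale.Agent.P168.MP.gu_mem hub a j
    rw [abs_of_pos x]; exact y.trans hub1
  filter_upwards [eventually_dim (gc := gainCap S (allBatch (k * R₀) 2))
    (c := √(α * D ^ 2 + R₀ * hi ^ 2)) (δ := δ) (b := 0) hτ hε₁ hε₂] with N ⟨hN1, hgN, hdevN, _⟩
  intro fs fs1 fs2 fs3 hF hI hZ hE hP hS hB hL
  have hf : ∀ i, Continuous (fs i) := fun i => continuous_iff_continuousAt.2 fun x => ((hS i).d0 x).continuousAt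
  have hb : ∀ i x, |fs i x| ≤ B := fun i x => abs_le.2 ⟨(hS i).lb x, hB i x⟩
  have : NeZero N := ⟨by omega⟩
  have hN : (0:ℝ) < N := by exact_mod_cast hN1
  obtain ⟨n, hn1, hn2⟩ := Eventually.exists (f := atTop) (Eventually.and
    (eventually_all.2 fun a : BIdx (k * R₀) 2 → Fin Kg =>
      hZ hR₀ hk (allBatch (k * R₀) 2) S (fun _ => hp) (gu ub Kg a) hh (hU a) hi hε₂)
    ((eventually_all_finset (range (⌊α * N⌋₊ + 1))).2 fun M _ => eventually_all.2 fun a : BIdx (k * R₀) 2 → Fin Kg =>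
      hI R₀ k S N M (β := allBatch (k * R₀) 2) (h := fun _ => hp) (u := gu ub Kg a) hR₀ hk hh (hU a) hi he))
  refine (upper_at (U := fun a : BIdx (k * R₀) 2 → Fin Kg => gu ub Kg a) (σ := σ) (w := 5 / 4 * (σ * σ))
    (P := fun a => P157.Par.Phi (fun y => exp (fs a y)) R₀ (lin R₀) (qh R₀ h₀) + (KL * (2 / R₀) + 5 * ε₁)) (n := n)
    hF hE hKp hP hS hb hR₀ hk hh hU hKL hL hh₀ (Nat.floor_le (by positivity)) hη hη1 hc hco hε₂1 hlo
    (min_le_left _ _) (hl1'.trans hhi) ?_ ?_ hgN hδ (by linarith)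
    (by rw [← hxm']; linarith [min_le_right l1 (xm / 2)]) (by rw [← hxm']; linarith) he.le hσ ?_ ?_
    (fun lam hlam a => hn1 a N lam hlam) (fun M hM a => hn2 M (mem_range.2 (by omega)) a)
    (fun M lam => EX_le_of_avg (fun a => intX_adX hf hR) fun g z => hgrid N (P157.Par.Site N (n + 1)) cfg
      (fieldW fs R₀ k lam g z) (fieldW_pos g z))).trans ?_
  · refine le_trans ?_ hηlog
    exact mul_le_mul_of_nonneg_left (mul_le_mul_of_nonneg_left (by linarith [abs_nonneg (log l1)]) (by positivity)) hη.le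
  · have : η * (R₀ * |log l1|) ≤ ε₂ := le_trans
      (mul_le_mul_of_nonneg_left (mul_le_mul_of_nonneg_left (by linarith) (by positivity)) hη.le) hηlog
    linarith
  · exact var_num heτ htτ (zero_lt_one.trans_le hhi) le_rfl ((add_le_add hδC hdevN).trans_eq (two_mul τ).symm) hτe
  · exact fun M => inc_num hlo hσ hKp hε₂ hε₂ε htK heD hKLσ
  · rw [sum_add_distrib, add_div, sum_const, card_range, nsmul_eq_mul, spinH]
    have hW : 0 ≤ KL * (2 / (R₀:ℝ)) + 5 * ε₁ := by positivity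
    have h1 : (⌊α * N⌋₊ : ℝ) * (KL * (2 / R₀) + 5 * ε₁) / N ≤ α * (KL * (2 / R₀) + 5 * ε₁) := by
      rw [mul_div_right_comm]
      exact mul_le_mul_of_nonneg_right ((div_le_iff₀ hN).2 (Nat.floor_le (by positivity))) hW
    linarith

end Vale.Agent.P166.Hopf.Up
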