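import Vale.Agent.P166.Gen.Up.Ends
import Vale.Agent.P166.Hopf.Up.EnvBase

/-! The field providers of the envelope system with one potential per pattern, from those over a base
weight: at fixed patterns the system is the one over the weight `hamF fs g`. -/

set_option linter.unusedSectionVars false

open MeasureTheory ProbabilityTheory Real Finset Filter
open scoped Topology
open Vale.Agent.P150 (gauss dot l1)
open Vale.Agent.P168.MP (lin Batch gainCap)

namespace Vale.Agent.P166.Hopf.Up

open Vale.Agent.P157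
open Vale.Agent.P157.Full (IntX meanX intX_of_bound intX_of_l1 cfg spinX tailAvg)
open Vale.Agent.P157.Par (Sm pats adev ovK)
open Vale.Agent.P166.Gen.Up (FB HB rB wB meanZ)
open Vale.Agent.P166.Gen.Up.Fld (ex)

variable {fs fs1 fs2 fs3 : ℕ → ℝ → ℝ} {B D : ℝ}

/-- the exponent of the patterns -/
noncomputable def hamE (fs : ℕ → ℝ → ℝ) {N M : ℕ} (g : Fin M → Fin N → ℝ) (σ : Fin N → Bool) : ℝ :=
  ∑ a : Fin M, fs (a : ℕ) (dot (Lim.xv N σ) (g a))

lemma abs_hamE_le (hb : ∀ i x, |fs i x| ≤ B) {N M : ℕ} (g : Fin M → Fin N → ℝ) (σ : Fin N → Bool) :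
    |hamE fs g σ| ≤ M * B :=
  (abs_sum_le_sum_abs _ _).trans ((sum_le_sum fun a _ => hb _ _).trans_eq (by simp))

/-- the exponent is Lipschitz in the patterns -/
lemma abs_hamE_sub_le (hS : ∀ i, Sm (fs i) (fs1 i) (fs2 i) (fs3 i) B D) {N M : ℕ} [NeZero N]
    (g g' : Fin M → Fin N → ℝ) (σ : Fin N → Bool) :
    |hamE fs g σ - hamE fs g' σ| ≤ √((M : ℝ) * D ^ 2) * √(∑ a, ∑ i, (g a i - g' a i) ^ 2) := by
  set x := Lim.xv N σ
  have hx : dot x x = 1 := Lim.dot_xv (NeZero.pos N) σ
  rw [hamE, hamE, ← sum_sub_distrib]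
  refine (abs_sum_le_sum_abs _ _).trans ?_
  have hterm : ∀ a : Fin M, |fs (a : ℕ) (dot x (g a)) - fs (a : ℕ) (dot x (g' a))| ≤
      D * √(∑ i, (g a i - g' a i) ^ 2) := fun a =>
    (Full.Fld.abs_f_sub_le (hS a) _ _).trans (mul_le_mul_of_nonneg_left (by
      have := Full.Fld.abs_dot_le_sqrt x fun i => g a i - g' a i
      rw [hx, Real.sqrt_one, one_mul] at this
      simpa only [dot, mul_sub, sum_sub_distrib] using this) (hS a).D_nonneg)
  refine (sum_le_sum fun a _ => hterm a).trans ?_
  refine (Real.sum_mul_le_sqrt_mul_sqrt univ (fun _ => D) fun a => √(∑ i, (g a i - g' a i) ^ 2)).trans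
    (le_of_eq ?_)
  simp [Real.sq_sqrt (sum_nonneg fun i (_ : i ∈ univ) => sq_nonneg (g _ i - g' _ i))]

/-- **the field provider** -/
theorem field_x (hS : ∀ i, Sm (fs i) (fs1 i) (fs2 i) (fs3 i) B D) (hb : ∀ i x, |fs i x| ≤ B) : FieldX fs D := by
  intro R₀ k S N n M _ ι _ _ β h u hR₀ hk hh hu lam
  have hf : ∀ i, Continuous (fs i) := fun i => continuous_iff_continuousAt.2 fun x => ((hS i).d0 x).continuousAt
  have hR : 1 ≤ k * R₀ := Full.Fld.one_le_kR hR₀ hk
  refine ⟨fun g g' z z' => ?_, fun j => ⟨fun g z =>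
    Gen.Up.Fld.FB_convex (E := hamE fs g) hR₀ hk lam z j, ?_⟩⟩
  · set A := ∑ a, ∑ i, (g a i - g' a i) ^ 2
    set Bz := ∑ x, (z x - z' x) ^ 2
    have h1 : |FX fs R₀ k S β h u lam g z - FX fs R₀ k S β h u lam g' z| ≤ √((M : ℝ) * D ^ 2) * √A :=
      Gen.Up.Fld.FB_base_lip (E := hamE fs g) (E' := hamE fs g') hR₀ hk lam z (abs_hamE_sub_le hS g g')
    have h2 : |FX fs R₀ k S β h u lam g' z - FX fs R₀ k S β h u lam g' z'| ≤
        √((N : ℝ) * ∑ j, lam j ^ 2) * √Bz :=
      Gen.Up.Fld.FB_lip (E := hamE fs g') hR₀ hk lam z z'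
    have hA : 0 ≤ A := sum_nonneg fun a _ => sum_nonneg fun i _ => sq_nonneg _
    have hB : 0 ≤ Bz := sum_nonneg fun x _ => sq_nonneg _
    have h3 := Real.sum_sqrt_mul_sqrt_le (univ : Finset (Fin 2))
      (f := ![(M : ℝ) * D ^ 2, (N : ℝ) * ∑ j, lam j ^ 2]) (g := ![A, Bz])
      (fun i => by fin_cases i <;> simp <;> positivity) (fun i => by fin_cases i <;> simp <;> assumption)
    simp only [Fin.sum_univ_two, Matrix.cons_val_zero, Matrix.cons_val_one] at h3
    exact (abs_sub_le _ _ _).trans ((add_le_add h1 h2).trans h3)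
  · set μz := gauss (Fin N × P157.Par.Ix (k * R₀) n)
    have hin : ∀ s (g : Fin M → Fin N → ℝ),
        HasDerivAt (fun t => ∫ z, FX (N := N) (n := n) fs R₀ k S β h u (Function.update lam j t) g z ∂μz)
          (∫ z, HX fs R₀ k S β h u (Function.update lam j s) g z j ∂μz) s := fun s g => by
      have h0 := Gen.Up.Fld.meanZ_deriv (E := hamE fs g) (n := n) (S := S) (β := β) (h := h) (u := u)
        (abs_hamE_le hb g) hR₀ hk (Function.update lam j s) j
      simp only [Function.update_self, Function.update_idem] at h0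
      exact h0
    have hout := (hasDerivAt_integral_of_dominated_loc_of_deriv_le (μ := pats N M)
      (F := fun s g => ∫ z, FX (N := N) (n := n) fs R₀ k S β h u (Function.update lam j s) g z ∂μz)
      (F' := fun s g => ∫ z, HX fs R₀ k S β h u (Function.update lam j s) g z j ∂μz)
      (bound := fun _ => ∫ z, l1 z ∂μz) (Metric.ball_mem_nhds (lam j) one_pos)
      (Eventually.of_forall fun s => (intX_FX hf hb hR hh hu).integral_prod_left.aestronglyMeasurable)
      (intX_FX hf hb hR hh hu).integral_prod_left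
      (intX_HX hf j).integral_prod_left.aestronglyMeasurable
      (Eventually.of_forall fun g s _ => (norm_integral_le_integral_norm _).trans
        (integral_mono_of_nonneg (Eventually.of_forall fun z => norm_nonneg _) P157.Par.integrable_l1
          (Eventually.of_forall fun z => abs_HX_le g z j)))
      (integrable_const _) (Eventually.of_forall fun g s _ => hin s g)).2
    simpa [meanX, μz, Function.update_eq_self] using hout

/-- tails commute with the mean -/
lemma meanX_tail {R₀ k S N n M : ℕ} [NeZero N] {ι : Type} [Fintype ι] [DecidableEq ι] {β : ι → Batch}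
    {h u : ι → ℝ} (hf : ∀ i, Continuous (fs i)) (lam : Fin R₀ → ℝ) (J : ℕ) :
    meanX (N := N) (M := M) (fun g z => tailAvg (k * R₀) J (rX (N := N) (n := n) fs R₀ k S β h u lam g z)) =
      tailAvg (k * R₀) J fun l => meanX (N := N) (M := M) fun g z => rX (N := N) (n := n) fs R₀ k S β h u lam g z l := by
  simp only [tailAvg]
  rw [Full.meanX_div_const, Full.meanX_sum _ fun l _ => intX_rX hf l]

/-- **the integrations by parts** -/
theorem ibp_x (hf : ∀ i, Continuous (fs i)) (hb : ∀ i x, |fs i x| ≤ B) : IbpX fs := by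
  intro R₀ k S N M _ ι _ _ β h u hR₀ hk hh hu Λ ε hε
  filter_upwards [Gen.Up.ibp_b R₀ k S N (β := β) (h := h) (u := u) hR₀ hk hh hu Λ (M * B) hε] with n hn lam hlam j
  have hR : 1 ≤ k * R₀ := Full.Fld.one_le_kR hR₀ hk
  set R := k * R₀
  set μz := gauss (Fin N × P157.Par.Ix R n)
  set T := fun (g : Fin M → Fin N → ℝ) (z : Fin N × P157.Par.Ix R n → ℝ) =>
    tailAvg R (j * k) (rX fs R₀ k S β h u lam g z)
  set H := fun (g : Fin M → Fin N → ℝ) (z : Fin N × P157.Par.Ix R n → ℝ) => HX fs R₀ k S β h u lam g z j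
  have key : ∀ g : Fin M → Fin N → ℝ,
      |(∫ z, H g z ∂μz) - lam j * N * (1 - ∫ z, T g z ∂μz)| ≤ N * ε ∧
      |(∫ z, H g z * T g z ∂μz) - lam j * N * ∫ z, (1 - T g z) * T g z ∂μz| ≤
        N * (12 * |lam j| * (∫ z, adX fs R₀ k S β h u lam g z ∂μz) + ε) := fun g => by
    have h0 := hn (hamF fs g) (hamF_pos fs g)
      (fun σ => (congrArg (fun x : ℝ => |x|) (Real.log_exp _)).trans_le (abs_hamE_le hb g σ)) lam hlam j
    have e := Gen.Up.Fld.meanZ_tail (E := hamE fs g) (n := n) (S := S) (β := β) (h := h) (u := u) (k := k)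
      lam ((j : ℕ) * k)
    refine ⟨?_, h0.2⟩
    have h1 := h0.1
    change |_ - lam j * N * (1 - tailAvg (k * R₀) (j * k) fun l =>
      meanZ fun z => rB (n := n) (ex (hamE fs g)) R₀ k S β h u lam z l)| ≤ _ at h1
    rw [← e] at h1
    exact h1
  have hcT : Continuous fun x : (Fin M → Fin N → ℝ) × (Fin N × P157.Par.Ix R n → ℝ) => T x.1 x.2 :=
    (continuous_finsetSum _ fun l _ => continuous_rX hf l).div_const _
  have hTb : ∀ g z, |T g z| ≤ 1 := fun g z =>
    Full.Fld.abs_tailAvg_le _ _ fun l => P157.Par.abs_qlev_le (wX_pos g z) l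
  have iH : IntX H := intX_HX hf j
  have iT : IntX T := intX_of_bound hcT hTb
  have iHT : IntX fun g z => H g z * T g z :=
    intX_of_l1 ((continuous_HX hf j).mul hcT) (A := 0) (C := 1) fun g z => by
      rw [abs_mul, zero_add, one_mul]
      exact (mul_le_of_le_one_right (abs_nonneg _) (hTb g z)).trans (abs_HX_le g z j)
  have iTT : IntX fun g z => (1 - T g z) * T g z :=
    intX_of_bound ((continuous_const.sub hcT).mul hcT) (C := 2) fun g z => by
      rw [abs_mul]
      exact (mul_le_of_le_one_right (abs_nonneg _) (hTb g z)).trans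
        ((abs_sub _ _).trans (by rw [abs_one]; linarith [hTb g z]))
  have iA : IntX (adX (N := N) (n := n) (M := M) fs R₀ k S β h u lam) := intX_adX hf hR
  refine ⟨?_, ?_⟩
  · rw [← meanX_tail hf]
    have i1 : Integrable (fun g => ∫ z, H g z ∂μz) (pats N M) := iH.integral_prod_left
    have iT' : Integrable (fun g => ∫ z, T g z ∂μz) (pats N M) := iT.integral_prod_left
    have i2 : Integrable (fun g => lam j * N * (1 - ∫ z, T g z ∂μz)) (pats N M) :=
      ((integrable_const (1:ℝ)).sub iT').const_mul _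
    have := abs_integral_le_integral_abs.trans
      (integral_mono (i1.sub i2).abs (integrable_const ((N : ℝ) * ε)) fun g => (key g).1)
    simp only [Pi.sub_apply] at this
    rw [integral_sub i1 i2, integral_const_mul, integral_sub (integrable_const _) iT', integral_const,
      probReal_univ, one_smul, integral_const, probReal_univ, one_smul] at this
    exact this
  · have i1 : Integrable (fun g => ∫ z, H g z * T g z ∂μz) (pats N M) := iHT.integral_prod_left
    have i2 : Integrable (fun g => lam j * N * ∫ z, (1 - T g z) * T g z ∂μz) (pats N M) :=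
      iTT.integral_prod_left.const_mul _
    have iA' : Integrable (fun g => 12 * |lam j| * ∫ z, adX fs R₀ k S β h u lam g z ∂μz) (pats N M) :=
      iA.integral_prod_left.const_mul _
    have i3 : Integrable (fun g => (N : ℝ) * (12 * |lam j| * (∫ z, adX fs R₀ k S β h u lam g z ∂μz) + ε)) (pats N M) :=
      (iA'.add (integrable_const _)).const_mul _
    have := abs_integral_le_integral_abs.trans (integral_mono (i1.sub i2).abs i3 fun g => (key g).2)
    simp only [Pi.sub_apply] at this
    rw [integral_sub i1 i2, integral_const_mul, integral_const_mul, integral_add iA' (integrable_const _),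
      integral_const_mul, integral_const, probReal_univ, one_smul] at this
    exact this

/-- **without patterns the sites decouple** -/
theorem zero_x : ZeroX fs := by
  intro R₀ k hR₀ hk ι _ _ β S h u hh hu Λ ε hε
  filter_upwards [Gen.Up.zero_b hR₀ hk β S h u hh hu Λ hε] with n hn N _ lam hlam
  have e : ∀ (g : Fin 0 → Fin N → ℝ), FX (n := n) fs R₀ k S β h u lam g =
      FB (fun _ => 1) R₀ k S β h u lam := fun g => by
    rw [show (fun _ : Fin N → Bool => (1:ℝ)) = hamF fs g from funext fun σ => by simp [hamF]]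
    rfl
  have := hn N lam hlam
  simpa [meanX, e, meanZ] using this

/-- **the fields cost at most the gain** -/
theorem ge_x (hf : ∀ i, Continuous (fs i)) (hb : ∀ i x, |fs i x| ≤ B) : GeX fs := by
  intro R₀ k S N n M _ hR₀ hk ι _ _ β h u hh hu lam
  have hR : 1 ≤ k * R₀ := Full.Fld.one_le_kR hR₀ hk
  have key : ∀ g : Fin M → Fin N → ℝ, log (∑ σ, Lim.wt N σ * hamF fs g σ) - gainCap S β ≤
      ∫ z, FX fs R₀ k S β h u lam g z ∂gauss (Fin N × P157.Par.Ix (k * R₀) n) :=
    fun g => Gen.Up.ge_b hR₀ hk β h u hh hu (hamF fs g) (hamF_pos fs g) lam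
  have hw : ∀ σ, (0 : ℝ) < Lim.wt N σ := fun σ => by unfold Lim.wt; positivity
  have hpos : ∀ g : Fin M → Fin N → ℝ, 0 < ∑ σ, Lim.wt N σ * hamF fs g σ := fun g =>
    sum_pos (fun σ _ => mul_pos (hw σ) (hamF_pos fs g σ)) univ_nonempty
  have hc : Continuous fun g : Fin M → Fin N → ℝ => log (∑ σ, Lim.wt N σ * hamF fs g σ) := by
    refine Continuous.log (continuous_finsetSum _ fun σ _ => continuous_const.mul ?_) fun g => (hpos g).ne'
    exact continuous_exp.comp (continuous_finsetSum _ fun (a : Fin M) _ => (hf a).comp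
      ((P157.Par.continuous_dot_left (Lim.xv N σ)).comp (continuous_apply a)))
  have hwsum : ∑ σ : Fin N → Bool, Lim.wt N σ = 1 := by simp [Lim.wt]
  have hbd : ∀ g : Fin M → Fin N → ℝ, |log (∑ σ, Lim.wt N σ * hamF fs g σ)| ≤ M * B := fun g => by
    have h2 := fun σ => abs_le.1 (abs_hamE_le hb g σ)
    have lo : exp (-(M * B)) ≤ ∑ σ, Lim.wt N σ * hamF fs g σ := by
      refine le_trans (by rw [← sum_mul, hwsum, one_mul]) (sum_le_sum fun σ _ =>
        mul_le_mul_of_nonneg_left (exp_le_exp.2 (h2 σ).1) (hw σ).le)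
    have hi : ∑ σ, Lim.wt N σ * hamF fs g σ ≤ exp (M * B) := by
      refine (sum_le_sum fun σ _ => mul_le_mul_of_nonneg_left (exp_le_exp.2 (h2 σ).2) (hw σ).le).trans ?_
      rw [← sum_mul, hwsum, one_mul]
    exact abs_le.2 ⟨(le_log_iff_exp_le (hpos g)).2 lo, (log_le_iff_le_exp (hpos g)).2 hi⟩
  have hi := Integrable.of_bound (μ := pats N M) hc.aestronglyMeasurable _ (Eventually.of_forall hbd)
  have := integral_mono (hi.sub (integrable_const _))
    (intX_FX (N := N) (n := n) (M := M) (S := S) (β := β) (lam := lam) hf hb hR hh hu).integral_prod_left key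
  simp only [Pi.sub_apply] at this
  rw [integral_sub hi (integrable_const _), integral_const, probReal_univ, one_smul] at this
  rw [pressF, mul_div_cancel₀ _ (Nat.cast_ne_zero.2 (NeZero.ne N))]
  exact this

end Vale.Agent.P166.Hopf.Up
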