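import Vale.Agent.P157.Full.Ends
import Vale.Agent.P166.Hopf.Up.EnvBase

/-! One more pattern with its own potential adds the nested functional of that potential at the mean
overlaps, up to the deviation of the overlaps. -/

set_option linter.unusedSectionVars false

open MeasureTheory ProbabilityTheory Real Finset Filter
open Vale.Agent.P150 (gauss dot l1)
open Vale.Agent.P168.MP (lin Batch gainCap nest logZ0 ok_lin)

namespace Vale.Agent.P166.Hopf.Up

open Vale.Agent.P157
open Vale.Agent.P157.Full (IntX meanX meanX_eq intX_of_bound intX_of_l1 cfg spinX MarkX lamSum)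
open Vale.Agent.P157.Par (Sm Prof pats adev ovK qlev)
open Vale.Agent.P157.Lim (xv)

variable {fs : ℕ → ℝ → ℝ} {B : ℝ} {N n M R₀ k S : ℕ} [NeZero N] {ι : Type} [Fintype ι] [DecidableEq ι]
  {β : ι → Batch} {h u : ι → ℝ} {lam : Fin R₀ → ℝ}

lemma continuous_insLast (g : Fin M → Fin N → ℝ) :
    Continuous fun y : Fin N → ℝ => P157.Par.ins (Fin.last M) y g :=
  Continuous.finInsertNth (A := fun _ : Fin (M + 1) => Fin N → ℝ) (Fin.last M) continuous_id continuous_const

/-- an integral over one more pattern, at any place -/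
lemma meanX_succ_at (a : Fin (M + 1)) {R : ℕ}
    {F : (Fin (M + 1) → Fin N → ℝ) → (Fin N × P157.Par.Ix R n → ℝ) → ℝ} (hF : IntX F)
    (hFy : ∀ g, Integrable (fun x : (Fin N → ℝ) × (Fin N × P157.Par.Ix R n → ℝ) => F (P157.Par.ins a x.1 g) x.2)
      ((gauss (Fin N)).prod (gauss (Fin N × P157.Par.Ix R n)))) :
    meanX F = meanX fun g z => ∫ y, F (P157.Par.ins a y g) z ∂gauss (Fin N) := by
  unfold meanX
  rw [P157.Par.integral_pats_succ a hF.integral_prod_left]
  exact integral_congr_ae (Eventually.of_forall fun g => integral_integral_swap (hFy g))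

lemma intX_ins_at (a : Fin (M + 1)) {R : ℕ}
    {G : (Fin (M + 1) → Fin N → ℝ) → (Fin N × P157.Par.Ix R n → ℝ) → ℝ} (hG : IntX G) :
    IntX fun g z => ∫ y, G (P157.Par.ins a y g) z ∂gauss (Fin N) := by
  set μ := pats N M
  set γ := gauss (Fin N)
  set ζ := gauss (Fin N × P157.Par.Ix R n)
  have h1 : Integrable (fun x : ((Fin M → Fin N → ℝ) × (Fin N → ℝ)) × (Fin N × P157.Par.Ix R n → ℝ) =>
      G (P157.Par.ins a x.1.2 x.1.1) x.2) ((μ.prod γ).prod ζ) :=
    (((P157.Par.measurePreserving_ins (N := N) (M := M) a).comp Measure.measurePreserving_swap).prod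
      (MeasurePreserving.id ζ)).integrable_comp_of_integrable hG
  have h2 : Integrable (fun x : (Fin M → Fin N → ℝ) × ((Fin N → ℝ) × (Fin N × P157.Par.Ix R n → ℝ)) =>
      G (P157.Par.ins a x.2.1 x.1) x.2.2) (μ.prod (γ.prod ζ)) :=
    ((measurePreserving_prodAssoc μ γ ζ).symm _).integrable_comp_of_integrable h1
  have h3 : Integrable (fun x : (Fin M → Fin N → ℝ) × ((Fin N × P157.Par.Ix R n → ℝ) × (Fin N → ℝ)) =>
      G (P157.Par.ins a x.2.2 x.1) x.2.1) (μ.prod (ζ.prod γ)) :=
    ((MeasurePreserving.id μ).prod Measure.measurePreserving_swap).integrable_comp_of_integrable h2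
  have h4 : Integrable (fun x : ((Fin M → Fin N → ℝ) × (Fin N × P157.Par.Ix R n → ℝ)) × (Fin N → ℝ) =>
      G (P157.Par.ins a x.2 x.1.1) x.1.2) ((μ.prod ζ).prod γ) :=
    (measurePreserving_prodAssoc μ ζ γ).integrable_comp_of_integrable h3
  exact h4.integral_prod_left

lemma hamF_insLast (g : Fin M → Fin N → ℝ) (y : Fin N → ℝ) (σ : Fin N → Bool) :
    hamF fs (P157.Par.ins (Fin.last M) y g) σ = hamF fs g σ * exp (fs M (dot (xv N σ) y)) := by
  rw [hamF, hamF, ← exp_add, Fin.sum_univ_succAbove _ (Fin.last M)]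
  simp [P157.Par.ins, add_comm]

lemma wX_insLast (g : Fin M → Fin N → ℝ) (z : Fin N × P157.Par.Ix (k * R₀) n → ℝ) (y : Fin N → ℝ) :
    wX fs R₀ k S β h u lam (P157.Par.ins (Fin.last M) y g) z =
      fun p : List (MarkX (P157.Par.Site N (n + 1)) N S β) => wX fs R₀ k S β h u lam g z p *
        P157.Par.fac (fs M) (fun q => xv N (P157.Par.spins (k * R₀) (q.map Prod.fst))) y p := by
  funext p
  simp only [wX, Full.pwX, fieldW, baseF, P157.Par.fac, hamF_insLast]
  ring

variable {f1 f2 f3 : ℝ → ℝ} {D : ℝ}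

lemma dist_rX_insLast (hS : Sm (fs M) f1 f2 f3 B D) (hB : ∀ x, fs M x ≤ B) (hR : 1 ≤ k * R₀)
    (g : Fin M → Fin N → ℝ) (z : Fin N × P157.Par.Ix (k * R₀) n → ℝ) (y : Fin N → ℝ) :
    P157.Par.dist1 (k * R₀) (rX fs R₀ k S β h u lam (P157.Par.ins (Fin.last M) y g) z)
        (rX fs R₀ k S β h u lam g z) ≤ exp (4 * B) * adX fs R₀ k S β h u lam g z := by
  set w := wX fs R₀ k S β h u lam g z
  set a : List (MarkX (P157.Par.Site N (n + 1)) N S β) → Fin N → ℝ := fun q => xv N (spinX cfg (k * R₀) q)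
  have hw : ∀ p, 0 < w p := wX_pos g z
  have hwy : wX fs R₀ k S β h u lam (P157.Par.ins (Fin.last M) y g) z =
      fun p => w p * P157.Par.fac (fs M) a y p := by
    rw [wX_insLast]
    simp only [a, Full.spinX_cfg hR]
    rfl
  have hl : ∀ l ≤ k * R₀, |rX fs R₀ k S β h u lam (P157.Par.ins (Fin.last M) y g) z l -
      rX fs R₀ k S β h u lam g z l| ≤
      exp (4 * B) * P157.Par.devOf (k * R₀) w (ovK (spinX cfg (k * R₀))) (rX fs R₀ k S β h u lam g z) l :=
    fun l hl => by
    have h1 := (P157.Par.rep_tilt (R := k * R₀) hR hw (P157.Par.fac_mem hS hB a y) (spinX cfg (k * R₀))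
      (ovK (spinX cfg (k * R₀))) (rX fs R₀ k S β h u lam g z) hl).2
    unfold rX
    rw [hwy]
    exact h1
  rw [P157.Par.dist1, adX, adev, mul_add, ← mul_div_assoc, Finset.mul_sum]
  exact add_le_add (div_le_div_of_nonneg_right
    (sum_le_sum fun l h => hl l (mem_range.1 h).le) (Nat.cast_nonneg _)) (hl (k * R₀) le_rfl)

lemma cont_PhiX {f : ℝ → ℝ} {KL : ℝ} (hf : ∀ i, Continuous (fs i)) (hKL : 0 ≤ KL) (hFl : P157.Par.PhiLip f KL)
    (hR : 1 ≤ k * R₀) :
    (Continuous fun x : (Fin M → Fin N → ℝ) × (Fin N × P157.Par.Ix (k * R₀) n → ℝ) =>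
      P157.Par.Phi (fun y => exp (f y)) (k * R₀) (lin (k * R₀)) (rX fs R₀ k S β h u lam x.1 x.2)) ∧
    ∀ g z, |P157.Par.Phi (fun y => exp (f y)) (k * R₀) (lin (k * R₀))
        (rX (N := N) (n := n) (M := M) fs R₀ k S β h u lam g z)| ≤
      |P157.Par.Phi (fun y => exp (f y)) (k * R₀) (lin (k * R₀)) fun _ => 1| + 2 * KL := by
  obtain ⟨h1, h2⟩ := P157.Par.cont_functional (F := P157.Par.Phi (fun y => exp (f y)) (k * R₀) (lin (k * R₀)))
    (q := fun x : (Fin M → Fin N → ℝ) × (Fin N × P157.Par.Ix (k * R₀) n → ℝ) => rX fs R₀ k S β h u lam x.1 x.2)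
    hR hKL (fun a b ha hb => hFl (k * R₀) a b hR ha hb) (fun x => (rX_prof x.1 x.2).1) fun l => continuous_rX hf l
  exact ⟨h1, fun g z => h2 (g, z)⟩

lemma pattern_pointwise (hf : ∀ i, Continuous (fs i)) (hS : Sm (fs M) f1 f2 f3 B D) (hB : ∀ x, fs M x ≤ B)
    {KV KL : ℝ} (hV : P157.Par.ValueClose (fs M) KV) (hKL : 0 ≤ KL) (hFl : P157.Par.PhiLip (fs M) KL)
    (hR : 1 ≤ k * R₀) (g : Fin M → Fin N → ℝ) (z : Fin N × P157.Par.Ix (k * R₀) n → ℝ) :
    |(∫ y, FX fs R₀ k S β h u lam (P157.Par.ins (Fin.last M) y g) z ∂gauss (Fin N)) -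
        FX fs R₀ k S β h u lam g z -
        ∫ y, P157.Par.Phi (fun y => exp (fs M y)) (k * R₀) (lin (k * R₀))
          (rX fs R₀ k S β h u lam (P157.Par.ins (Fin.last M) y g) z) ∂gauss (Fin N)| ≤
      (KV + KL * exp (4 * B)) * adX fs R₀ k S β h u lam g z := by
  set F : (ℕ → ℝ) → ℝ := P157.Par.Phi (fun y => exp (fs M y)) (k * R₀) (lin (k * R₀))
  set w := wX fs R₀ k S β h u lam g z
  set rd := spinX (S := S) (β := β) (cfg (N := N) (n := n)) (k * R₀)
  set a : List (MarkX (P157.Par.Site N (n + 1)) N S β) → Fin N → ℝ := fun q => xv N (rd q)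
  have hw : ∀ p, 0 < w p := wX_pos g z
  have hwy : ∀ y, wX fs R₀ k S β h u lam (P157.Par.ins (Fin.last M) y g) z =
      fun p => w p * P157.Par.fac (fs M) a y p := fun y => by
    rw [wX_insLast]
    simp only [a, rd, Full.spinX_cfg hR]
    rfl
  have hcv : P157.Par.cv a = ovK rd := funext fun p => funext fun p' => P157.Par.ov_eq _ _
  set q := rX fs R₀ k S β h u lam g z
  have hq : Prof (k * R₀) q 1 := (rX_prof g z).1
  have hv := hV hR hw (a := a) (fun p => by rw [hcv]; exact (P157.Par.ov_self _).le) hq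
  rw [hcv] at hv
  have e : ∀ y, FX fs R₀ k S β h u lam (P157.Par.ins (Fin.last M) y g) z = FX fs R₀ k S β h u lam g z +
      log (nest (lin (k * R₀)) w (P157.Par.fac (fs M) a y) (k * R₀) []) := fun y => by
    have := Vale.Agent.P168.MP.logZ0_mul (R := k * R₀) (m := lin (k * R₀)) hw (Y := P157.Par.fac (fs M) a y)
      fun p => exp_pos _
    show logZ0 (k * R₀) (lin (k * R₀)) _ = logZ0 (k * R₀) (lin (k * R₀)) w + _
    rw [hwy]
    linarith
  have hsh : ∀ y, |F (rX fs R₀ k S β h u lam (P157.Par.ins (Fin.last M) y g) z) - F q| ≤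
      KL * exp (4 * B) * adX fs R₀ k S β h u lam g z := fun y => by
    refine (hFl (k * R₀) _ q hR (rX_prof (fs := fs) (S := S) (β := β) (h := h) (u := u) (lam := lam)
      (P157.Par.ins (Fin.last M) y g) z).1 hq).trans ?_
    rw [mul_assoc]
    exact mul_le_mul_of_nonneg_left (dist_rX_insLast (h := h) (u := u) (S := S) (β := β) (lam := lam)
      (k := k) (R₀ := R₀) hS hB hR g z y) hKL
  have hFc : Continuous fun y : Fin N → ℝ => FX fs R₀ k S β h u lam (P157.Par.ins (Fin.last M) y g) z :=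
    Full.cont_slice (G := FX fs R₀ k S β h u lam) (continuous_FX (N := N) (n := n) (M := M + 1) (R₀ := R₀)
      (k := k) (S := S) (β := β) (h := h) (u := u) (lam := lam) hf) (continuous_insLast g) z
  have hiF : Integrable (fun y => log (nest (lin (k * R₀)) w (P157.Par.fac (fs M) a y) (k * R₀) []))
      (gauss (Fin N)) := by
    have hc : Continuous fun y : Fin N → ℝ =>
        log (nest (lin (k * R₀)) w (P157.Par.fac (fs M) a y) (k * R₀) []) :=
      (hFc.sub (continuous_const (y := FX fs R₀ k S β h u lam g z))).congr fun y => by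
        show FX fs R₀ k S β h u lam (P157.Par.ins (Fin.last M) y g) z - FX fs R₀ k S β h u lam g z = _
        linarith [e y]
    exact Integrable.of_bound hc.aestronglyMeasurable B (Eventually.of_forall fun y =>
      P157.Par.abs_log_nest_le (ok_lin hR hw) fun p => P157.Par.fac_mem hS hB a y p)
  obtain ⟨hPc0, hPb0⟩ := cont_PhiX (N := N) (n := n) (M := M + 1) (S := S) (β := β) (h := h)
    (u := u) (lam := lam) hf hKL hFl hR
  have hPc : Continuous fun y : Fin N → ℝ => F (rX fs R₀ k S β h u lam (P157.Par.ins (Fin.last M) y g) z) :=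
    Full.cont_slice (G := fun g z => F (rX fs R₀ k S β h u lam g z)) hPc0 (continuous_insLast g) z
  have hiP : Integrable (fun y => F (rX fs R₀ k S β h u lam (P157.Par.ins (Fin.last M) y g) z)) (gauss (Fin N)) :=
    Integrable.of_bound hPc.aestronglyMeasurable _
      (Eventually.of_forall fun y => (Real.norm_eq_abs _).trans_le (hPb0 _ _))
  have h1 := norm_integral_le_of_norm_le_const (μ := gauss (Fin N))
    (f := fun y => F (rX fs R₀ k S β h u lam (P157.Par.ins (Fin.last M) y g) z) - F q)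
    (Eventually.of_forall fun y => (Real.norm_eq_abs _).trans_le (hsh y))
  rw [integral_sub hiP (integrable_const _), integral_const, probReal_univ, one_smul, mul_one,
    Real.norm_eq_abs] at h1
  rw [show (∫ y, FX fs R₀ k S β h u lam (P157.Par.ins (Fin.last M) y g) z ∂gauss (Fin N)) =
      ∫ y, (FX fs R₀ k S β h u lam g z + log (nest (lin (k * R₀)) w (P157.Par.fac (fs M) a y) (k * R₀) []))
        ∂gauss (Fin N) from integral_congr_ae (Eventually.of_forall e)]
  rw [integral_add (integrable_const _) hiF, integral_const, probReal_univ, one_smul, add_mul]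
  have h1' := abs_le.1 h1
  have hv' := abs_le.1 hv
  rw [abs_le]
  simp only [adX] at *
  constructor <;> linarith

/-- **one pattern step**, from the closeness and the Lipschitz bound of each potential -/
theorem step_x {fs1 fs2 fs3 : ℕ → ℝ → ℝ} (hS : ∀ i, Sm (fs i) (fs1 i) (fs2 i) (fs3 i) B D)
    (hB : ∀ i x, fs i x ≤ B) {KV KL : ℝ} (hV : ∀ i, P157.Par.ValueClose (fs i) KV) (hKL : 0 ≤ KL)
    (hL : ∀ i, P157.Par.PhiLip (fs i) KL) : StepX fs (KV + KL * exp (4 * B)) := by
  intro R₀ k S N n M _ ι _ _ β h u lam hR₀ hk hh hu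
  have hR : 1 ≤ k * R₀ := Nat.one_le_iff_ne_zero.2 (Nat.mul_ne_zero (by omega) (by omega))
  have hf : ∀ i, Continuous (fs i) := fun i => continuous_iff_continuousAt.2 fun x => ((hS i).d0 x).continuousAt
  have hb : ∀ i x, |fs i x| ≤ B := fun i x => abs_le.2 ⟨(hS i).lb x, hB i x⟩
  obtain ⟨hPc, hPb⟩ := cont_PhiX (N := N) (n := n) (M := M + 1) (S := S) (β := β) (h := h)
    (u := u) (lam := lam) hf hKL (hL M) hR
  set R := k * R₀
  set P1 : (Fin (M + 1) → Fin N → ℝ) → (Fin N × P157.Par.Ix R n → ℝ) → ℝ :=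
    fun g z => P157.Par.Phi (fun y => exp (fs M y)) R (lin R) (rX fs R₀ k S β h u lam g z)
  set F1 : (Fin (M + 1) → Fin N → ℝ) → (Fin N × P157.Par.Ix R n → ℝ) → ℝ := FX fs R₀ k S β h u lam
  set F0 : (Fin M → Fin N → ℝ) → (Fin N × P157.Par.Ix R n → ℝ) → ℝ := FX fs R₀ k S β h u lam
  have iF1 : IntX F1 := intX_FX hf hb hR hh hu
  have iF0 : IntX F0 := intX_FX hf hb hR hh hu
  have iP1 : IntX P1 := intX_of_bound hPc fun g z => hPb g z
  have hjoint : ∀ g : Fin M → Fin N → ℝ, Continuous fun x : (Fin N → ℝ) × (Fin N × P157.Par.Ix R n → ℝ) =>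
      (P157.Par.ins (Fin.last M) x.1 g, x.2) :=
    fun g => ((continuous_insLast g).comp continuous_fst).prodMk continuous_snd
  have iF1y : ∀ g, Integrable (fun x : (Fin N → ℝ) × (Fin N × P157.Par.Ix R n → ℝ) =>
      F1 (P157.Par.ins (Fin.last M) x.1 g) x.2) ((gauss (Fin N)).prod (gauss (Fin N × P157.Par.Ix R n))) := fun g =>
    (((integrable_const _).add (P157.Par.integrable_l1.const_mul (lamSum lam))).comp_snd _).mono'
      ((continuous_FX hf).comp (hjoint g)).aestronglyMeasurable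
      (Eventually.of_forall fun x => abs_FX_le hb hR hh hu _ x.2)
  have iP1y : ∀ g, Integrable (fun x : (Fin N → ℝ) × (Fin N × P157.Par.Ix R n → ℝ) =>
      P1 (P157.Par.ins (Fin.last M) x.1 g) x.2) ((gauss (Fin N)).prod (gauss (Fin N × P157.Par.Ix R n))) := fun g =>
    Integrable.of_bound (hPc.comp (hjoint g)).aestronglyMeasurable _
      (Eventually.of_forall fun x => (Real.norm_eq_abs _).trans_le (hPb _ _))
  have key := fun g z => pattern_pointwise (N := N) (n := n) (R₀ := R₀) (k := k) (S := S) (β := β)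
    (h := h) (u := u) (lam := lam) hf (hS M) (hB M) (hV M) hKL (hL M) hR g z
  have iA : IntX (adX (N := N) (n := n) (M := M) fs R₀ k S β h u lam) := intX_adX hf hR
  have i1 := intX_ins_at (Fin.last M) iF1
  have i2 := intX_ins_at (Fin.last M) iP1
  rw [meanX_succ_at (Fin.last M) iF1 iF1y, meanX_succ_at (Fin.last M) iP1 iP1y, ← Full.meanX_sub i1 iF0,
    ← Full.meanX_sub (i1.sub iF0) i2, ← Full.meanX_const_mul]
  exact (Full.abs_meanX_le ((i1.sub iF0).sub i2)).trans
    (Full.meanX_mono ((i1.sub iF0).sub i2).abs (iA.const_mul _) key)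

end Vale.Agent.P166.Hopf.Up
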